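import Mathlib
import Vale.Agent.P217.B.Block

/-!
# P217: the endomorphism of the ring at a fixed point of the iteration is bijective
-/

noncomputable section

namespace Vale.Agent.P217.Sym

open MvPolynomial Finset B

variable {p n : ℕ} [Fact p.Prime]

/-- Set u i and w i to zero for i < h. -/
def low (h : ℕ) {A : Type} [CommRing A] : MvPolynomial BV A →+* MvPolynomial BV A :=
  (aeval (Sum.elim (fun i => if i < h then 0 else X (Sum.inl i))
    (Sum.elim (fun i => if i < h then 0 else X (Sum.inr (Sum.inl i)))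
      (fun j => X (Sum.inr (Sum.inr j))))) :
      MvPolynomial BV A →ₐ[A] MvPolynomial BV A).toRingHom

theorem low_ι (h : ℕ) (b : PB) : low h ((bSetup p n).ι b) = (bSetup p n).ι (low h b) := by
  show ((low h).comp (MvPolynomial.map (algebraMap ℤ (ZI p)))) b =
    ((MvPolynomial.map (algebraMap ℤ (ZI p))).comp (low h)) b
  congr 1
  refine MvPolynomial.ringHom_ext (fun r => by simp [low]) fun x => ?_
  rcases x with i | i | j
  · by_cases hi : i < h <;> simp [low, hi]
  · by_cases hi : i < h <;> simp [low, hi]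
  · simp [low]

theorem low_pinv (h : ℕ) : low h (bSetup p n).pinv = (bSetup p n).pinv := by
  simp [low, bSetup]

theorem low_vB {h : ℕ} (hn : h < n) {i : ℕ} (hi : i ≤ h) :
    low h (vB n i) = if 1 ≤ i ∧ i = h then xu h else 0 := by
  unfold vB xu
  by_cases h1 : 1 ≤ i
  · rw [if_pos ⟨h1, by omega⟩]
    rcases lt_or_eq_of_le hi with h2 | rfl
    · simp [low, h2, show ¬ i = h by omega]
    · simp [low, h1]
  · simp [h1, show ¬ i = n by omega]

theorem low_wB {h : ℕ} (hn : h < n) {i : ℕ} (hi : i ≤ h) :
    low h (wB n i) = if 1 ≤ i ∧ i = h then xw h else 0 := by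
  unfold wB xw
  by_cases h1 : 1 ≤ i
  · rw [if_pos ⟨h1, by omega⟩]
    rcases lt_or_eq_of_le hi with h2 | rfl
    · simp [low, h2, show ¬ i = h by omega]
    · simp [low, h1]
  · simp [h1, show ¬ i = n by omega]

theorem low_m {h : ℕ} (hn : h < n) (k : ℕ) (hk : 1 ≤ k) (hkh : k ≤ h) :
    low h ((bSetup p n).m k) =
      if k = h then (bSetup p n).pinv * (bSetup p n).ι (xu h) else 0 := by
  induction k using Nat.strong_induction_on with
  | _ k ih =>
    obtain ⟨k, rfl⟩ : ∃ r, k = r + 1 := ⟨k - 1, by omega⟩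
    rw [FE.Setup.m_succ, map_mul, low_pinv, map_sum, Finset.sum_range_succ', Finset.sum_eq_zero,
      zero_add]
    · rw [map_mul, map_pow, low_ι, bSetup_v, low_vB hn (by omega), pow_zero, pow_one,
        FE.Setup.m_zero, map_one, one_mul, Nat.sub_zero]
      split_ifs with h1 h2 <;> first
        | omega
        | rfl
        | simp
    · intro i hi
      have := mem_range.mp hi
      rw [map_mul, ih (i + 1) (by omega) (by omega) (by omega), if_neg (by omega), zero_mul]

theorem low_m' {h : ℕ} (hn : h < n) (k : ℕ) (hk : 1 ≤ k) (hkh : k < h) :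
    low h ((bSetup p n).m k) = 0 := by
  rw [low_m hn k hk hkh.le, if_neg hkh.ne]

theorem low_xt (h j : ℕ) {A : Type} [CommRing A] :
    low h (X (Sum.inr (Sum.inr j)) : MvPolynomial BV A) = X (Sum.inr (Sum.inr j)) := by
  simp [low]

theorem low_Kc {h : ℕ} (hn : h < n) {j : ℕ} (hj : j < h) :
    low h (Kc p n j) = (bSetup p n).ι (xt j) := by
  rw [Kc, map_sum, Finset.sum_range_succ, Finset.sum_eq_zero, zero_add]
  · rw [map_mul, map_pow, low_ι, xt, low_xt, Nat.sub_self, FE.Setup.m_zero, map_one, one_mul,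
      pow_zero, pow_one]
  · intro i hi
    have := mem_range.mp hi
    rw [map_mul, low_m' hn _ (by omega) (by omega), zero_mul]

theorem low_Kc_top {h : ℕ} (hn : h < n) (hh : 1 ≤ h) :
    low h (Kc p n h) = (bSetup p n).ι (xt h) +
      (bSetup p n).pinv * (bSetup p n).ι (xu h) * (bSetup p n).ι (xt 0) ^ p ^ h := by
  obtain ⟨k, rfl⟩ : ∃ r, h = r + 1 := ⟨h - 1, by omega⟩
  rw [Kc, map_sum, Finset.sum_range_succ, Finset.sum_range_succ', Finset.sum_eq_zero, zero_add,
    add_comm]
  · congr 1
    · rw [map_mul, map_pow, low_ι, xt, low_xt, Nat.sub_self, FE.Setup.m_zero, map_one, one_mul,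
        pow_zero, pow_one]
    · rw [map_mul, map_pow, low_ι, xt, low_xt, Nat.sub_zero, low_m hn _ (by omega) le_rfl,
        if_pos rfl]
  · intro i hi
    have := mem_range.mp hi
    rw [map_mul, low_m' hn _ (by omega) (by omega), zero_mul]

theorem low_Rc {h : ℕ} (hn : h < n) (hh : 1 ≤ h) :
    low h (Rc p n h) = (bSetup p n).ι ((p : PB) * xt h + xu h * xt 0 ^ p ^ h - xt 0 * xw h) := by
  rw [Rc, if_neg (by omega), map_sub, map_mul, map_natCast, low_Kc_top hn hh, gc, map_sum,
    Finset.sum_eq_single 0]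
  · rw [map_mul, map_pow, low_ι, low_Kc hn (by omega), low_wB hn (by omega), Nat.sub_zero,
      if_pos ⟨hh, rfl⟩, pow_zero, pow_one, map_sub, map_add, map_mul, map_mul, map_mul,
      map_pow, map_natCast]
    linear_combination ((bSetup p n).ι (xu h) * (bSetup p n).ι (xt 0) ^ p ^ h) *
      (bSetup p n).p_pinv
  · intro i hi hne
    have := mem_range.mp hi
    rw [map_mul, map_pow, low_ι, low_wB hn (by omega), if_neg (by omega), map_zero,
      zero_pow (pow_ne_zero _ (Fact.out : p.Prime).ne_zero), mul_zero]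
  · intro hno
    exact absurd (mem_range.mpr (by omega)) hno

theorem low_Wp {h : ℕ} (hn : h < n) (hh : 1 ≤ h) :
    low h (Wp p n h) = (p : PB) * xt h + xu h * xt 0 ^ p ^ h - xt 0 * xw h := by
  refine (bSetup p n).inj ?_
  rw [← low_ι, ← low_Rc hn hh, Rc_eq, map_sum, Finset.sum_range_succ, Finset.sum_eq_zero,
    zero_add, Nat.sub_self, FE.Setup.m_zero, one_mul, pow_zero, pow_one]
  intro i hi
  have := mem_range.mp hi
  rcases Nat.eq_zero_or_pos i with rfl | hi'
  · rw [Wp_zero, map_zero, zero_pow (pow_ne_zero _ (Fact.out : p.Prime).ne_zero), mul_zero,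
      map_zero]
  · rw [map_mul, low_m' hn _ (by omega) (by omega), zero_mul]

/-- The parameters of a fixed point generate the maximal ideal, with p. -/
theorem vv_mem_of_fixed {z : ℕ → E0 p n} (hfix : ∀ k, ev p n z (Wp p n k) = 0)
    (ht : IsUnit (z n)) {J : Ideal (E0 p n)} (hp : (p : E0 p n) ∈ J)
    (hz : ∀ i, 1 ≤ i → i < n → z i ∈ J) : ∀ h, 1 ≤ h → h < n → vv p n h ∈ J := by
  intro h
  induction h using Nat.strong_induction_on with
  | _ h ih =>
    intro h1 h2
    set q := Ideal.Quotient.mk J with hq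
    have hmem : ∀ a ∈ J, q a = 0 := fun a ha => Ideal.Quotient.eq_zero_iff_mem.2 ha
    have e : ∀ b, q (ev p n z (low h b)) = q (ev p n z b) := by
      intro b
      show ((q.comp (ev p n z)).comp (low h)) b = (q.comp (ev p n z)) b
      congr 1
      refine MvPolynomial.ringHom_ext (fun r => by simp [low]) fun x => ?_
      rcases x with i | i | j
      · by_cases hi : i < h
        · simp only [RingHom.comp_apply]
          simp only [low, AlgHom.toRingHom_eq_coe, RingHom.coe_coe, aeval_X, Sum.elim_inl,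
            if_pos hi, map_zero]
          by_cases hi' : 1 ≤ i ∧ i < n
          · simp [pt, hi', hmem _ (ih i hi hi'.1 hi'.2)]
          · simp [pt, hi']
        · simp [low, hi]
      · by_cases hi : i < h
        · by_cases hi' : 1 ≤ i ∧ i < n
          · simp [low, hi, pt, hi', hmem _ (hz i hi'.1 hi'.2)]
          · simp [low, hi, pt, hi']
        · simp [low, hi]
      · simp [low]
    have h0 := e (Wp p n h)
    rw [low_Wp h2 h1, hfix, map_zero] at h0
    simp only [map_sub, map_add, map_mul, map_pow, map_natCast, xt, xu, xw, eval₂Hom_X'] at h0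
    simp only [pt, Sum.elim_inl, Sum.elim_inr, if_pos (And.intro h1 h2), zero_add] at h0
    rw [← map_natCast q p, hmem _ hp, zero_mul, zero_add, hmem _ (hz h h1 h2), mul_zero, sub_zero,
      ← map_pow, ← map_mul, Ideal.Quotient.eq_zero_iff_mem] at h0
    exact (Ideal.mul_unit_mem_iff_mem J (ht.pow _)).mp h0

/-- The residue field of the ring is finite. -/
theorem finite_residue : Finite (E0 p n ⧸ mE p n) := by
  have : Finite (GaloisField p n) := inferInstance
  refine Finite.of_surjective (fun c => Ideal.Quotient.mk (mE p n) (teich p n c)) fun x => ?_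
  obtain ⟨a, rfl⟩ := Ideal.Quotient.mk_surjective x
  refine ⟨residue a, Ideal.Quotient.eq.2 ?_⟩
  rw [mem_maximal_iff, map_sub, residue_teich, sub_self]

theorem fg_maximal : (mE p n).FG := by
  show (IsLocalRing.maximalIdeal (E0 p n)).FG
  rw [SigmaBlock.maximal_eq]
  exact Submodule.FG.sup (Submodule.fg_span (Set.finite_singleton _))
    (Submodule.fg_span (Set.finite_range _))

/-- An endomorphism fixing the constants whose image of the maximal ideal generates it is
bijective. -/
theorem bijective_of_generate {f : E0 p n →+* E0 p n}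
    (hc : ∀ w, f (constants w) = constants w)
    (hle : ∀ a ∈ mE p n, f a ∈ mE p n) (hgen : mE p n ≤ (mE p n).map f) :
    Function.Bijective f := by
  classical
  have hC : IsAdicComplete (mE p n) (E0 p n) := SigmaBlock.complete_E0
  have hpow : ∀ r, ∀ a ∈ mE p n ^ r, f a ∈ mE p n ^ r := by
    intro r a ha
    have : (mE p n ^ r).map f ≤ mE p n ^ r := by
      rw [Ideal.map_pow]
      exact Ideal.pow_right_mono (Ideal.map_le_iff_le_comap.2 hle) r
    exact this (Ideal.mem_map_of_mem f ha)
  have step : ∀ r, ∀ y ∈ mE p n ^ r, ∃ x, f x - y ∈ mE p n ^ (r + 1) := by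
    intro r y hy
    have hy' : y ∈ (mE p n ^ r).map f := by
      rw [Ideal.map_pow]
      exact Ideal.pow_right_mono hgen r hy
    suffices ∃ x ∈ mE p n ^ r, f x - y ∈ mE p n ^ (r + 1) from
      let ⟨x, _, hx⟩ := this; ⟨x, hx⟩
    rw [Ideal.map, ← Ideal.submodule_span_eq] at hy'
    clear hy
    induction hy' using Submodule.span_induction with
    | mem y hy =>
      obtain ⟨x, hx, rfl⟩ := hy
      exact ⟨x, hx, by simp⟩
    | zero => exact ⟨0, zero_mem _, by simp⟩
    | add a b _ _ ha hb =>
      obtain ⟨x, hx, hxa⟩ := ha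
      obtain ⟨y, hy, hyb⟩ := hb
      exact ⟨x + y, add_mem hx hy, by rw [map_add, add_sub_add_comm]; exact add_mem hxa hyb⟩
    | smul c a _ ha =>
      obtain ⟨x, hx, hxa⟩ := ha
      refine ⟨constants (MvPowerSeries.constantCoeff c) * x, Ideal.mul_mem_left _ _ hx, ?_⟩
      have hfx := hpow r x hx
      have hc' : constants (MvPowerSeries.constantCoeff c) - c ∈ mE p n := by
        rw [mem_maximal_iff]
        simp [residue, constants]
      rw [map_mul, hc, smul_eq_mul,
        show constants (MvPowerSeries.constantCoeff c) * f x - c * a =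
          (constants (MvPowerSeries.constantCoeff c) - c) * f x + c * (f x - a) by ring]
      refine add_mem ?_ (Ideal.mul_mem_left _ _ hxa)
      rw [pow_succ']
      exact Ideal.mul_mem_mul hc' hfx
  have surj : ∀ r y, ∃ x, f x - y ∈ mE p n ^ r := by
    intro r
    induction r with
    | zero => intro y; exact ⟨0, by simp⟩
    | succ r ih =>
      intro y
      obtain ⟨x, hx⟩ := ih y
      obtain ⟨x', hx'⟩ := step r (y - f x) (by rw [← neg_sub]; exact neg_mem hx)
      refine ⟨x + x', ?_⟩
      rw [map_add]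
      convert hx' using 1
      ring
  have inj : ∀ r a, f a ∈ mE p n ^ r → a ∈ mE p n ^ r := by
    intro r a ha
    have : Finite (E0 p n ⧸ mE p n) := finite_residue
    have : Finite (E0 p n ⧸ mE p n ^ r) := Ideal.finite_quotient_pow fg_maximal r
    let g := Ideal.quotientMap (mE p n ^ r) f fun a ha => hpow r a ha
    have hg : Function.Surjective g := fun y => by
      obtain ⟨y, rfl⟩ := Ideal.Quotient.mk_surjective y
      obtain ⟨x, hx⟩ := surj r y
      exact ⟨Ideal.Quotient.mk _ x, Ideal.Quotient.eq.2 hx⟩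
    have hg' := Finite.injective_iff_surjective.2 hg
    rw [← Ideal.Quotient.eq_zero_iff_mem] at ha ⊢
    exact hg' (by rw [map_zero]; exact ha)
  refine ⟨(injective_iff_map_eq_zero f).2 fun a ha => ?_, fun y => ?_⟩
  · refine IsHausdorff.haus' (I := mE p n) a fun r => ?_
    rw [SModEq.zero, smul_eq_mul, Ideal.mul_top]
    exact inj r a (by rw [ha]; exact zero_mem _)
  · choose x hx using fun r => surj r y
    obtain ⟨L, hL⟩ := IsPrecomplete.prec' (I := mE p n) x fun {i k} hik => by
      rw [SModEq.sub_mem, smul_eq_mul, Ideal.mul_top]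
      refine inj i _ ?_
      rw [map_sub, ← sub_sub_sub_cancel_right _ _ y]
      exact sub_mem (hx i) (Ideal.pow_le_pow_right hik (hx k))
    refine ⟨L, (sub_eq_zero.mp (IsHausdorff.haus' (I := mE p n) _ fun r => ?_))⟩
    rw [SModEq.zero, smul_eq_mul, Ideal.mul_top]
    have h1 : x r - L ∈ mE p n ^ r := by
      simpa [SModEq.sub_mem, smul_eq_mul, Ideal.mul_top] using hL r
    have h2 := sub_mem (hx r) (hpow r _ h1)
    rw [map_sub] at h2
    convert h2 using 1
    ring

/-- An endomorphism fixing the constants and sending m into m commutes with the residue. -/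
theorem residue_comp {f : E0 p n →+* E0 p n} (hc : ∀ w, f (constants w) = constants w)
    (hle : ∀ a ∈ mE p n, f a ∈ mE p n) (a : E0 p n) : residue (f a) = residue a := by
  have h : a - constants (MvPowerSeries.constantCoeff a) ∈ mE p n := by
    rw [mem_maximal_iff]; simp [residue, constants]
  have h' := (mem_maximal_iff p n _).1 (hle _ h)
  rw [map_sub, hc, map_sub, sub_eq_zero] at h'
  rw [h']
  simp [residue, constants]

/-- At a fixed point there is an automorphism moving the parameters. -/
theorem exists_aut (hn : 1 ≤ n) {z : ℕ → E0 p n} (hfix : ∀ k, ev p n z (Wp p n k) = 0)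
    (hgood : Good p n z) :
    ∃ s : E0 p n ≃+* E0 p n, (∀ a, residue (s a) = residue a) ∧
      ∀ i, s (vv p n i) = par p n z i := by
  obtain ⟨f, hfc, hfX⟩ := SigmaBlock.exists_eval (fun j : Fin (n - 1) => z (j + 1)) fun j =>
    (mem_maximal_iff p n _).2 (hgood.1 _ (by omega) (by omega))
  have hvv : ∀ i, 1 ≤ i → i < n → f (vv p n i) = z i := fun i h1 h2 => by
    rw [vv, dif_pos ⟨h1, h2⟩, hfX]
    congr 1
    simp only
    omega
  have hfp : f ((p : ℕ) : E0 p n) = (p : E0 p n) := map_natCast f p
  have hle : ∀ a ∈ mE p n, f a ∈ mE p n := by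
    suffices h : Ideal.map f (mE p n) ≤ mE p n from fun a ha => h (Ideal.mem_map_of_mem f ha)
    have e := SigmaBlock.maximal_eq (p := p) (n := n)
    conv_lhs => rw [show mE p n = _ from e]
    rw [Ideal.map_sup, Ideal.map_span, Ideal.map_span, sup_le_iff, Ideal.span_le, Ideal.span_le]
    refine ⟨?_, ?_⟩
    · rintro _ ⟨_, rfl, rfl⟩
      rw [map_natCast (MvPowerSeries.C (σ := Fin (n - 1))), hfp]
      exact (mem_maximal_iff p n _).2 (by rw [map_natCast, CharP.cast_eq_zero])
    · rintro _ ⟨_, ⟨i, rfl⟩, rfl⟩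
      rw [hfX]
      exact (mem_maximal_iff p n _).2 (hgood.1 _ (by omega) (by omega))
  have hpJ : ((p : ℕ) : E0 p n) ∈ (mE p n).map f := by
    rw [← hfp]
    exact Ideal.mem_map_of_mem f ((mem_maximal_iff p n _).2 (by rw [map_natCast, CharP.cast_eq_zero]))
  have hzJ : ∀ i, 1 ≤ i → i < n → z i ∈ (mE p n).map f := fun i h1 h2 => by
    rw [← hvv i h1 h2]
    exact Ideal.mem_map_of_mem f ((mem_maximal_iff p n _).2 (residue_vv p n ⟨h1, h2⟩))
  have ht : IsUnit (z n) := by
    by_contra hu
    have h1 : z n ∈ mE p n := (IsLocalRing.mem_maximalIdeal _).mpr hu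
    rw [mem_maximal_iff, hgood.2] at h1
    exact one_ne_zero h1
  have hvJ := vv_mem_of_fixed hfix ht hpJ hzJ
  have hgen : mE p n ≤ (mE p n).map f := by
    have e := SigmaBlock.maximal_eq (p := p) (n := n)
    conv_lhs => rw [show mE p n = _ from e]
    rw [sup_le_iff, Ideal.span_le, Ideal.span_le]
    refine ⟨?_, ?_⟩
    · rintro _ rfl
      rw [map_natCast (MvPowerSeries.C (σ := Fin (n - 1)))]
      exact hpJ
    · rintro _ ⟨i, rfl⟩
      have := hvJ (i + 1) (by omega) (by omega)
      rw [vv, dif_pos ⟨by omega, by omega⟩] at this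
      simpa using this
  refine ⟨RingEquiv.ofBijective f (bijective_of_generate hfc hle hgen),
    fun a => residue_comp hfc hle a, fun i => ?_⟩
  show f (vv p n i) = par p n z i
  by_cases hi : 1 ≤ i ∧ i < n
  · rw [hvv i hi.1 hi.2]
    simp [par, wB, xw, pt, hi]
  · by_cases hin : i = n
    · subst hin
      rw [par_n, vv, dif_neg hi, if_pos rfl, map_one]
    · rw [par_out p n hn z (by omega), vv, dif_neg hi, if_neg hin, map_zero]

end Vale.Agent.P217.Sym
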