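import Mathlib
import Vale.Agent.P217.Interfaces

/-!
# P217: symmetries with their series, and the dictionary with residual pairs
-/

noncomputable section

namespace Vale.Agent.P217.Sym

/-- φ is a homomorphism of formal group laws from G to H. -/
def IsLawHom {R : Type} [CommRing R] (G H : FormalGroup R) (φ : PowerSeries R) : Prop :=
  PowerSeries.constantCoeff φ = 0 ∧
    PowerSeries.subst G.toPowerSeries φ = MvPowerSeries.subst
      ![PowerSeries.subst (MvPowerSeries.X 0 : MvPowerSeries (Fin 2) R) φ,
        PowerSeries.subst (MvPowerSeries.X 1 : MvPowerSeries (Fin 2) R) φ] H.toPowerSeries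

/-- φ is an isomorphism from F to the law obtained by applying s to the coefficients of F. -/
def IsSymmetryVia {p n : ℕ} [Fact p.Prime] (F : FormalGroup (E0 p n))
    (s : E0 p n ≃+* E0 p n) (φ : PowerSeries (E0 p n)) : Prop :=
  IsUnit (PowerSeries.coeff 1 φ) ∧ IsLawHom F (F.map s.toRingHom) φ

end Vale.Agent.P217.Sym

namespace Vale.Agent.P217

open Vale.Agent.P217.Sym

/-- The dictionary between symmetries and pairs (field automorphism, isomorphism of the reduced
law to its conjugate). -/
def SymmetryDictionary : Prop :=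
  ∀ (p n : ℕ) [Fact p.Prime], 1 ≤ n → ∀ F : FormalGroup (E0 p n), IsUniversalDeformation p n F →
    PowerSeries.map residue (nsmulSeries F p) = PowerSeries.X ^ p ^ n ∧
    (∀ (s : E0 p n ≃+* E0 p n) (φ : PowerSeries (E0 p n)), IsSymmetryVia F s φ →
      ∃ τ : GaloisField p n ≃+* GaloisField p n, (∀ a, residue (s a) = τ (residue a)) ∧
        IsLawHom (F.map residue) ((F.map residue).map τ.toRingHom) (PowerSeries.map residue φ) ∧
        IsUnit (PowerSeries.coeff 1 (PowerSeries.map residue φ))) ∧
    (∀ (τ : GaloisField p n ≃+* GaloisField p n) (γ : PowerSeries (GaloisField p n)),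
      IsLawHom (F.map residue) ((F.map residue).map τ.toRingHom) γ →
        IsUnit (PowerSeries.coeff 1 γ) →
          ∃ s φ, IsSymmetryVia F s φ ∧ (∀ a, residue (s a) = τ (residue a)) ∧
            PowerSeries.map residue φ = γ) ∧
    ∀ (s s' : E0 p n ≃+* E0 p n) (φ φ' : PowerSeries (E0 p n)), IsSymmetryVia F s φ →
      IsSymmetryVia F s' φ' → (∀ a, residue (s a) = residue (s' a)) →
        PowerSeries.map residue φ = PowerSeries.map residue φ' → s = s'

end Vale.Agent.P217
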