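import Mathlib
import Vale.Agent.P217.A.Group
import Vale.Agent.P217.FE
import Vale.Agent.P217.Sym.Defs

/-!
# P217: homomorphisms of laws with logarithms
-/

noncomputable section

namespace Vale.Agent.P217.Sym

open Finset

variable {R : Type} [CommRing R]

theorem constantCoeff_subst_X {φ : PowerSeries R} (hφ : PowerSeries.constantCoeff φ = 0)
    (i : Fin 2) :
    (PowerSeries.subst (MvPowerSeries.X i : MvPowerSeries (Fin 2) R) φ).constantCoeff = 0 :=
  PowerSeries.constantCoeff_subst_eq_zero (MvPowerSeries.constantCoeff_X i) _ hφ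

theorem hasSubst_pair {a b : MvPowerSeries (Fin 2) R} (ha : a.constantCoeff = 0)
    (hb : b.constantCoeff = 0) : MvPowerSeries.HasSubst ![a, b] :=
  MvPowerSeries.hasSubst_of_constantCoeff_zero fun i => by
    fin_cases i
    · exact ha
    · exact hb

theorem subst_subst_mv {φ : PowerSeries R} {w : Fin 2 → MvPowerSeries (Fin 2) R}
    (hw : MvPowerSeries.HasSubst w) {z : MvPowerSeries (Fin 2) R} (hz : z.constantCoeff = 0) :
    MvPowerSeries.subst w (PowerSeries.subst z φ) =
      PowerSeries.subst (MvPowerSeries.subst w z) φ := by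
  rw [PowerSeries.subst_def,
    MvPowerSeries.subst_comp_subst_apply (PowerSeries.HasSubst.of_constantCoeff_zero hz).const hw]
  rfl

theorem IsLawHom.comp {G H M : FormalGroup R} {φ θ : PowerSeries R} (hφ : IsLawHom G H φ)
    (hθ : IsLawHom H M θ) : IsLawHom G M (PowerSeries.subst φ θ) := by
  obtain ⟨hφ0, hφh⟩ := hφ
  obtain ⟨hθ0, hθh⟩ := hθ
  have hφs := PowerSeries.HasSubst.of_constantCoeff_zero' hφ0
  have hGs : PowerSeries.HasSubst G.toPowerSeries :=
    PowerSeries.HasSubst.of_constantCoeff_zero G.zero_constantCoeff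
  have hX : ∀ i : Fin 2, PowerSeries.HasSubst (MvPowerSeries.X i : MvPowerSeries (Fin 2) R) :=
    fun i => PowerSeries.HasSubst.of_constantCoeff_zero (MvPowerSeries.constantCoeff_X i)
  have h0 := constantCoeff_subst_X hφ0
  have hw := hasSubst_pair (h0 0) (h0 1)
  refine ⟨PowerSeries.constantCoeff_subst_eq_zero hφ0 _ hθ0, ?_⟩
  rw [PowerSeries.subst_comp_subst_apply hφs hGs, hφh,
    ← subst_subst_mv hw H.zero_constantCoeff, hθh,
    MvPowerSeries.subst_comp_subst_apply
      (hasSubst_pair (constantCoeff_subst_X hθ0 0) (constantCoeff_subst_X hθ0 1)) hw]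
  congr 1
  funext i
  fin_cases i
  · simp [subst_subst_mv hw (MvPowerSeries.constantCoeff_X _), MvPowerSeries.subst_X hw,
      PowerSeries.subst_comp_subst_apply hφs (hX 0)]
  · simp [subst_subst_mv hw (MvPowerSeries.constantCoeff_X _), MvPowerSeries.subst_X hw,
      PowerSeries.subst_comp_subst_apply hφs (hX 1)]

theorem IsLawHom.substInv {G H : FormalGroup R} {φ : PowerSeries R} (hφ : IsLawHom G H φ)
    (h1 : IsUnit (PowerSeries.coeff 1 φ)) : IsLawHom H G (φ.substInvOfIsUnit h1) := by
  obtain ⟨hφ0, hφh⟩ := hφ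
  set θ := φ.substInvOfIsUnit h1
  have hθ0 : PowerSeries.constantCoeff θ = 0 := PowerSeries.constantCoeff_substInvOfIsUnit _ h1
  have hθs := PowerSeries.HasSubst.substInvOfIsUnit φ h1
  have hHs : PowerSeries.HasSubst H.toPowerSeries :=
    PowerSeries.HasSubst.of_constantCoeff_zero H.zero_constantCoeff
  have hX : ∀ i : Fin 2, PowerSeries.HasSubst (MvPowerSeries.X i : MvPowerSeries (Fin 2) R) :=
    fun i => PowerSeries.HasSubst.of_constantCoeff_zero (MvPowerSeries.constantCoeff_X i)
  have h0 := constantCoeff_subst_X hθ0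
  have hw := hasSubst_pair (h0 0) (h0 1)
  refine ⟨hθ0, ?_⟩
  refine FE.subst_injective hφ0 h1
    (PowerSeries.constantCoeff_subst_eq_zero H.zero_constantCoeff _ hθ0)
    (MvPowerSeries.constantCoeff_subst_eq_zero hw
      (fun i => by
        fin_cases i
        · exact h0 0
        · exact h0 1) G.zero_constantCoeff) ?_
  rw [← PowerSeries.subst_comp_subst_apply hθs hHs,
    PowerSeries.subst_substInvOfIsUnit_right _ hφ0, PowerSeries.subst_X hHs,
    ← subst_subst_mv hw G.zero_constantCoeff, hφh,
    MvPowerSeries.subst_comp_subst_apply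
      (hasSubst_pair (constantCoeff_subst_X hφ0 0) (constantCoeff_subst_X hφ0 1)) hw]
  have key : ∀ j : Fin 2, MvPowerSeries.subst
      ![PowerSeries.subst (MvPowerSeries.X 0 : MvPowerSeries (Fin 2) R) θ,
        PowerSeries.subst (MvPowerSeries.X 1 : MvPowerSeries (Fin 2) R) θ]
      (PowerSeries.subst (MvPowerSeries.X j : MvPowerSeries (Fin 2) R) φ) = MvPowerSeries.X j := by
    intro j
    rw [subst_subst_mv hw (MvPowerSeries.constantCoeff_X j), MvPowerSeries.subst_X hw]
    have e : ![PowerSeries.subst (MvPowerSeries.X 0 : MvPowerSeries (Fin 2) R) θ,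
        PowerSeries.subst (MvPowerSeries.X 1 : MvPowerSeries (Fin 2) R) θ] j =
        PowerSeries.subst (MvPowerSeries.X j : MvPowerSeries (Fin 2) R) θ := by
      fin_cases j <;> rfl
    rw [e, ← PowerSeries.subst_comp_subst_apply hθs (hX j),
      PowerSeries.subst_substInvOfIsUnit_right _ hφ0, PowerSeries.subst_X (hX j)]
  have ev : (fun i => MvPowerSeries.subst
      ![PowerSeries.subst (MvPowerSeries.X 0 : MvPowerSeries (Fin 2) R) θ,
        PowerSeries.subst (MvPowerSeries.X 1 : MvPowerSeries (Fin 2) R) θ]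
      (![PowerSeries.subst (MvPowerSeries.X 0 : MvPowerSeries (Fin 2) R) φ,
        PowerSeries.subst (MvPowerSeries.X 1 : MvPowerSeries (Fin 2) R) φ] i)) =
      MvPowerSeries.X := by
    funext i
    fin_cases i
    · exact key 0
    · exact key 1
  rw [ev, MvPowerSeries.subst_self]
  rfl

theorem IsLawHom.map {S : Type} [CommRing S] (g : R →+* S) {G H : FormalGroup R}
    {φ : PowerSeries R} (hφ : IsLawHom G H φ) :
    IsLawHom (G.map g) (H.map g) (PowerSeries.map g φ) := by
  obtain ⟨h0, hh⟩ := hφ
  have hX : ∀ i : Fin 2, PowerSeries.HasSubst (MvPowerSeries.X i : MvPowerSeries (Fin 2) R) :=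
    fun i => PowerSeries.HasSubst.of_constantCoeff_zero (MvPowerSeries.constantCoeff_X i)
  refine ⟨?_, ?_⟩
  · rw [← PowerSeries.coeff_zero_eq_constantCoeff_apply, PowerSeries.coeff_map,
      PowerSeries.coeff_zero_eq_constantCoeff_apply, h0, map_zero]
  have e := congrArg (MvPowerSeries.map g) hh
  rw [PowerSeries.map_subst (PowerSeries.HasSubst.of_constantCoeff_zero G.zero_constantCoeff),
    MvPowerSeries.map_subst
      (hasSubst_pair (constantCoeff_subst_X h0 0) (constantCoeff_subst_X h0 1))] at e
  have ev : (fun i => MvPowerSeries.map g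
      (![PowerSeries.subst (MvPowerSeries.X 0 : MvPowerSeries (Fin 2) R) φ,
        PowerSeries.subst (MvPowerSeries.X 1 : MvPowerSeries (Fin 2) R) φ] i)) =
      ![PowerSeries.subst (MvPowerSeries.X 0 : MvPowerSeries (Fin 2) S) (PowerSeries.map g φ),
        PowerSeries.subst (MvPowerSeries.X 1 : MvPowerSeries (Fin 2) S) (PowerSeries.map g φ)] := by
    funext i
    fin_cases i <;> simp [PowerSeries.map_subst (hX _), MvPowerSeries.map_X]
  rw [ev] at e
  exact e

/-- A series that is additive is linear, without additive torsion. -/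
theorem eq_linear_of_additive (hR : ∀ (k : ℕ) (a : R), k ≠ 0 → k • a = 0 → a = 0)
    {g : PowerSeries R} (g0 : PowerSeries.constantCoeff g = 0)
    (hg : PowerSeries.subst (MvPowerSeries.X 0 + MvPowerSeries.X 1 : MvPowerSeries (Fin 2) R) g =
      PowerSeries.subst (MvPowerSeries.X 0 : MvPowerSeries (Fin 2) R) g +
        PowerSeries.subst (MvPowerSeries.X 1 : MvPowerSeries (Fin 2) R) g) :
    g = PowerSeries.C (PowerSeries.coeff 1 g) * PowerSeries.X := by
  ext k
  rcases Nat.lt_or_ge k 2 with hk | hk
  · interval_cases k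
    · simp [g0]
    · simp
  rw [PowerSeries.coeff_C_mul, PowerSeries.coeff_X, if_neg (by omega), mul_zero]
  have h := congrArg (MvPowerSeries.coeff (Finsupp.single (0 : Fin 2) (k - 1) +
    Finsupp.single (1 : Fin 2) 1)) hg
  rw [map_add, PowerSeries.coeff_subst_X_zero_add_X_one, PowerSeries.coeff_subst_single,
    PowerSeries.coeff_subst_single] at h
  simp only [Finsupp.add_apply, Finsupp.single_eq_same,
    Finsupp.single_eq_of_ne (show (0 : Fin 2) ≠ 1 by decide),
    Finsupp.single_eq_of_ne (show (1 : Fin 2) ≠ 0 by decide), add_zero, zero_add] at h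
  have hne0 : Finsupp.single (0 : Fin 2) (k - 1) + Finsupp.single 1 1 ≠
      Finsupp.single (0 : Fin 2) (k - 1) := fun e => by
    simpa using congrArg (fun x => x 1) e
  have hne1 : Finsupp.single (0 : Fin 2) (k - 1) + Finsupp.single 1 1 ≠
      Finsupp.single (1 : Fin 2) 1 := fun e => by
    have := congrArg (fun x => x 0) e
    simp at this
    omega
  rw [if_neg hne0, if_neg hne1, add_zero, show k - 1 + 1 = k by omega] at h
  refine hR ((k.choose (k - 1))) _ (Nat.choose_pos (by omega)).ne' ?_
  rw [nsmul_eq_mul]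
  exact h

/-- A homomorphism between laws with logarithms has a linear effect on the logarithms. -/
theorem log_hom (hR : ∀ (k : ℕ) (a : R), k ≠ 0 → k • a = 0 → a = 0) {G H : FormalGroup R}
    {lG lH φ : PowerSeries R} (hG0 : PowerSeries.constantCoeff lG = 0)
    (hG1 : PowerSeries.coeff 1 lG = 1) (hH0 : PowerSeries.constantCoeff lH = 0)
    (hG : PowerSeries.subst G.toPowerSeries lG =
      PowerSeries.subst (MvPowerSeries.X 0 : MvPowerSeries (Fin 2) R) lG +
        PowerSeries.subst (MvPowerSeries.X 1 : MvPowerSeries (Fin 2) R) lG)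
    (hH : PowerSeries.subst H.toPowerSeries lH =
      PowerSeries.subst (MvPowerSeries.X 0 : MvPowerSeries (Fin 2) R) lH +
        PowerSeries.subst (MvPowerSeries.X 1 : MvPowerSeries (Fin 2) R) lH)
    (hφ : IsLawHom G H φ) :
    ∃ c : R, PowerSeries.subst φ lH = PowerSeries.C c * lG := by
  obtain ⟨hφ0, hφh⟩ := hφ
  have hu : IsUnit (PowerSeries.coeff 1 lG) := hG1 ▸ isUnit_one
  set e := lG.substInvOfIsUnit hu
  have he0 : PowerSeries.constantCoeff e = 0 := PowerSeries.constantCoeff_substInvOfIsUnit _ hu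
  have hes := PowerSeries.HasSubst.substInvOfIsUnit lG hu
  have hφs := PowerSeries.HasSubst.of_constantCoeff_zero' hφ0
  set g : PowerSeries R := PowerSeries.subst φ lH
  have hg0 : PowerSeries.constantCoeff g = 0 :=
    PowerSeries.constantCoeff_subst_eq_zero hφ0 _ hH0
  set w : PowerSeries R := PowerSeries.subst e g
  have hw0 : PowerSeries.constantCoeff w = 0 :=
    PowerSeries.constantCoeff_subst_eq_zero he0 _ hg0
  have hX : ∀ i : Fin 2, PowerSeries.HasSubst (MvPowerSeries.X i : MvPowerSeries (Fin 2) R) :=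
    fun i => PowerSeries.HasSubst.of_constantCoeff_zero (MvPowerSeries.constantCoeff_X i)
  have hGg : PowerSeries.subst G.toPowerSeries g =
      PowerSeries.subst (MvPowerSeries.X 0 : MvPowerSeries (Fin 2) R) g +
        PowerSeries.subst (MvPowerSeries.X 1 : MvPowerSeries (Fin 2) R) g := by
    rw [PowerSeries.subst_comp_subst_apply hφs
        (PowerSeries.HasSubst.of_constantCoeff_zero G.zero_constantCoeff), hφh,
      FE.log_add H.zero_constantCoeff hH (constantCoeff_subst_X hφ0 0)
        (constantCoeff_subst_X hφ0 1),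
      PowerSeries.subst_comp_subst_apply hφs (hX 0), PowerSeries.subst_comp_subst_apply hφs (hX 1)]
  have hwadd : PowerSeries.subst (MvPowerSeries.X 0 + MvPowerSeries.X 1 :
      MvPowerSeries (Fin 2) R) w =
      PowerSeries.subst (MvPowerSeries.X 0 : MvPowerSeries (Fin 2) R) w +
        PowerSeries.subst (MvPowerSeries.X 1 : MvPowerSeries (Fin 2) R) w := by
    have h0 := constantCoeff_subst_X he0
    have hpair := hasSubst_pair (h0 0) (h0 1)
    have key := congrArg (MvPowerSeries.subst
      ![PowerSeries.subst (MvPowerSeries.X 0 : MvPowerSeries (Fin 2) R) e,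
        PowerSeries.subst (MvPowerSeries.X 1 : MvPowerSeries (Fin 2) R) e]) hGg
    rw [MvPowerSeries.subst_add hpair, subst_subst_mv hpair G.zero_constantCoeff,
      subst_subst_mv hpair (MvPowerSeries.constantCoeff_X _),
      subst_subst_mv hpair (MvPowerSeries.constantCoeff_X _), MvPowerSeries.subst_X hpair,
      MvPowerSeries.subst_X hpair] at key
    simp only [Matrix.cons_val_zero, Matrix.cons_val_one] at key
    rw [PowerSeries.subst_comp_subst_apply hes
        (PowerSeries.HasSubst.of_constantCoeff_zero (by simp)),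
      PowerSeries.subst_comp_subst_apply hes (hX 0), PowerSeries.subst_comp_subst_apply hes (hX 1),
      ← key]
    congr 1
    refine FE.subst_injective hG0 hu
      (PowerSeries.constantCoeff_subst_eq_zero (by simp) _ he0)
      (MvPowerSeries.constantCoeff_subst_eq_zero hpair
        (fun i => by
          fin_cases i
          · exact h0 0
          · exact h0 1) G.zero_constantCoeff) ?_
    rw [← PowerSeries.subst_comp_subst_apply hes
        (PowerSeries.HasSubst.of_constantCoeff_zero (by simp)),
      PowerSeries.subst_substInvOfIsUnit_right _ hG0,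
      PowerSeries.subst_X (PowerSeries.HasSubst.of_constantCoeff_zero (by simp)),
      FE.log_add G.zero_constantCoeff hG (h0 0) (h0 1),
      ← PowerSeries.subst_comp_subst_apply hes (hX 0),
      ← PowerSeries.subst_comp_subst_apply hes (hX 1),
      PowerSeries.subst_substInvOfIsUnit_right _ hG0, PowerSeries.subst_X (hX 0),
      PowerSeries.subst_X (hX 1)]
  have hlin := eq_linear_of_additive hR hw0 hwadd
  refine ⟨PowerSeries.coeff 1 w, ?_⟩
  have hGs := PowerSeries.HasSubst.of_constantCoeff_zero' hG0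
  have e1 : PowerSeries.subst lG w = g := by
    rw [PowerSeries.subst_comp_subst_apply hes hGs,
      PowerSeries.subst_substInvOfIsUnit_left _ hG0]
    exact PowerSeries.X_subst g
  rw [← e1, hlin]
  rw [PowerSeries.subst_mul hGs, PowerSeries.subst_C, PowerSeries.subst_X hGs,
    PowerSeries.coeff_C_mul, PowerSeries.coeff_one_X, mul_one]
  rfl

end Vale.Agent.P217.Sym

namespace Vale.Agent.P217.FE.Setup

open MvPowerSeries Finset

variable {B K : Type} [CommRing B] [CommRing K] {p : ℕ} (S : Setup B K p) {σ : Type}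

/-- Converse of the functional equation lemma. -/
theorem Del_LE_int [Fact p.Prime] {h : MvPowerSeries σ B} (h0 : constantCoeff h = 0)
    (α : σ →₀ ℕ) : S.IsInt (S.Del (S.LE (MvPowerSeries.map S.ι h)) α) := by
  have h0' := constantCoeff_map' S.ι h0
  have key : S.IsPInt (∑ a ∈ Icc 1 (Finsupp.degree α), S.ι (S.v a) *
      (coeff α ((S.twist a).LE ((MvPowerSeries.map S.ι h) ^ p ^ a)) -
        coeff α (tw (S.φK ^ a) (p ^ a) (pow_ne_zero a (Fact.out : p.Prime).ne_zero)
          (S.LE (MvPowerSeries.map S.ι h))))) := by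
    refine S.isPInt_sum _ _ fun a _ => ?_
    obtain ⟨b, hb⟩ := (S.twist a).LE_congr_mod (S.pow_congr_tw a h) α
    refine ⟨S.v a * b, ?_⟩
    have e2 : (S.twist a).ι = S.ι := rfl
    rw [map_pow, e2, S.map_tw, S.LE_tw a _ _ h0'] at hb
    rw [hb, map_mul, map_mul, map_mul]
    ring
  show _ ∈ S.ι.range
  have := add_mem (S.ι.mem_range_self (coeff α h)) (S.pinv_mul key)
  simp only [Del]
  rw [S.LE_split _ h0']
  convert this using 1
  simp only [mul_sub, Finset.sum_sub_distrib, MvPowerSeries.coeff_map]
  ring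

end Vale.Agent.P217.FE.Setup
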