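import Mathlib
import Vale.Agent.P217.B.Block
import Vale.Agent.P217.Sym.Hom

/-!
# P217: a symmetry is determined by its residual pair
-/

noncomputable section

namespace Vale.Agent.P217.Sym

open Finset B

variable {p n : ℕ} [Fact p.Prime]

theorem isSymmetry_iff (F : FormalGroup (E0 p n)) (s : E0 p n ≃+* E0 p n) :
    IsSymmetry F s ↔ ∃ φ, IsSymmetryVia F s φ :=
  ⟨fun ⟨φ, h0, h1, h⟩ => ⟨φ, h1, h0, h⟩, fun ⟨φ, h1, h0, h⟩ => ⟨φ, h0, h1, h⟩⟩

theorem residue_surj_zero {w : WittVector p (GaloisField p n)}
    (hw : WittVector.constantCoeff w = 0) : ∃ b, w = (p : WittVector p (GaloisField p n)) * b := by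
  have : w ∈ Ideal.span {(p : WittVector p (GaloisField p n))} := by
    rw [WittVector.mem_span_p_iff_coeff_zero_eq_zero]
    exact hw
  exact Ideal.mem_span_singleton.mp this

theorem natCast_mem_maximal : ((p : ℕ) : E0 p n) ∈ IsLocalRing.maximalIdeal (E0 p n) := by
  rw [mem_maximal_iff, map_natCast, CharP.cast_eq_zero]

theorem residue_eq_iff (a b : E0 p n) :
    residue a = residue b ↔ a - b ∈ IsLocalRing.maximalIdeal (E0 p n) := by
  rw [mem_maximal_iff, map_sub, sub_eq_zero]

/-- An automorphism trivial on the residue field fixes the constants. -/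
theorem fix_constants (hn : 1 ≤ n) (hc : IsAdicComplete (mE p n) (E0 p n))
    {s : E0 p n ≃+* E0 p n} (hs : ∀ a, residue (s a) = residue a)
    (w : WittVector p (GaloisField p n)) : s (constants w) = constants w := by
  have ht : ∀ c : GaloisField p n, s (teich p n c) = teich p n c := by
    intro c
    have hx : s (teich p n c) ^ p ^ n = s (teich p n c) := by
      rw [← map_pow, teich, ← map_pow constants, teich_pow_q p n (by omega)]
    have hy : teich p n c ^ p ^ n = teich p n c := by
      rw [teich, ← map_pow constants, teich_pow_q p n (by omega)]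
    set x := s (teich p n c)
    set y := teich p n c
    have hxy : residue x = residue y := hs y
    have h := (Commute.all x y).mul_geom_sum₂ (p ^ n)
    rw [hx, hy] at h
    have hmem : ∑ i ∈ range (p ^ n), x ^ i * y ^ (p ^ n - 1 - i) ∈ mE p n := by
      rw [mem_maximal_iff, map_sum]
      have : ∀ i ∈ range (p ^ n),
          residue (x ^ i * y ^ (p ^ n - 1 - i)) = residue y ^ (p ^ n - 1) := fun i hi => by
        rw [map_mul, map_pow, map_pow, hxy, ← pow_add,
          show i + (p ^ n - 1 - i) = p ^ n - 1 by have := mem_range.mp hi; omega]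
      rw [Finset.sum_congr rfl this, Finset.sum_const, card_range, nsmul_eq_mul, Nat.cast_pow,
        CharP.cast_eq_zero, zero_pow (by omega), zero_mul]
    set S := ∑ i ∈ range (p ^ n), x ^ i * y ^ (p ^ n - 1 - i)
    have hu : IsUnit (1 - S) := IsLocalRing.isUnit_one_sub_self_of_mem_nonunits S
      ((IsLocalRing.mem_maximalIdeal S).mp hmem)
    rw [← sub_eq_zero, ← hu.mul_left_eq_zero]
    linear_combination -h
  have key : ∀ (N : ℕ) (v : WittVector p (GaloisField p n)),
      s (constants v) - constants v ∈ mE p n ^ N := by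
    intro N
    induction N with
    | zero => simp
    | succ N ih =>
      intro v
      obtain ⟨b, hb⟩ := residue_surj_zero
        (w := v - WittVector.teichmuller p (WittVector.constantCoeff v)) (by
          rw [map_sub, sub_eq_zero]
          exact (WittVector.teichmuller_coeff_zero p _).symm)
      rw [sub_eq_iff_eq_add] at hb
      rw [hb, map_add constants, map_mul constants, map_natCast constants, map_add, map_mul,
        map_natCast, ← teich, ht, add_sub_add_right_eq_sub, ← mul_sub, pow_succ']
      exact Ideal.mul_mem_mul natCast_mem_maximal (ih b)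
  rw [← sub_eq_zero]
  refine IsHausdorff.haus hc.toIsHausdorff _ fun r => ?_
  rw [SModEq.sub_mem, sub_zero, smul_eq_mul, Ideal.mul_top]
  exact key r w

theorem mem_maximal_map (s : E0 p n ≃+* E0 p n) {a : E0 p n}
    (ha : a ∈ IsLocalRing.maximalIdeal (E0 p n)) : s a ∈ IsLocalRing.maximalIdeal (E0 p n) := by
  rw [IsLocalRing.mem_maximalIdeal, mem_nonunits_iff] at ha ⊢
  intro hu
  exact ha (by simpa using hu.map s.symm)

theorem eval₂_eq_of_gen (f : E0 p n →+* E0 p n) (hc : ∀ w, f (constants w) = constants w)
    (hX : ∀ i, f (MvPowerSeries.X i) = MvPowerSeries.X i)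
    (P : MvPolynomial (Fin (n - 1)) (WittVector p (GaloisField p n))) : f ↑P = ↑P := by
  induction P using MvPolynomial.induction_on with
  | C a => rw [MvPolynomial.coe_C]; exact hc a
  | add P Q hP hQ => rw [MvPolynomial.coe_add, map_add, hP, hQ]
  | mul_X P i hP => rw [MvPolynomial.coe_mul, map_mul, hP, MvPolynomial.coe_X, hX]

/-- An automorphism fixing constants and variables is the identity. -/
theorem eq_refl_of_gen (hcomp : IsAdicComplete (mE p n) (E0 p n)) {s : E0 p n ≃+* E0 p n}
    (hc : ∀ w, s (constants w) = constants w)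
    (hX : ∀ i, s (MvPowerSeries.X i) = MvPowerSeries.X i) : s = RingEquiv.refl _ := by
  apply RingEquiv.ext
  intro g
  show s g = g
  rw [← sub_eq_zero]
  refine IsHausdorff.haus hcomp.toIsHausdorff _ fun r => ?_
  rw [SModEq.sub_mem, sub_zero, smul_eq_mul, Ideal.mul_top]
  -- split g into a polynomial and a tail in the r-th power of the ideal of the variables
  let I : Ideal (E0 p n) := Ideal.span (Set.range MvPowerSeries.X)
  have hI : I ≤ mE p n := by
    rw [Ideal.span_le]
    rintro _ ⟨i, rfl⟩
    exact (mem_maximal_iff p n _).mpr (by simp [residue])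
  have hsI : Ideal.map s.toRingHom (I ^ r) ≤ mE p n ^ r := by
    rw [Ideal.map_pow]
    refine Ideal.pow_right_mono (Ideal.map_le_iff_le_comap.mpr fun a ha => ?_) r
    exact mem_maximal_map s (hI ha)
  obtain ⟨P, hP⟩ := exists_poly_sub_mem r g
  have e : s g - g = s (g - ↑P) - (g - ↑P) := by
    rw [map_sub, show s (↑P) = (↑P : E0 p n) from eval₂_eq_of_gen s.toRingHom hc hX P]
    ring
  rw [e]
  exact sub_mem (hsI (Ideal.mem_map_of_mem _ hP)) (Ideal.pow_right_mono hI r hP)
where
  exists_poly_sub_mem (r : ℕ) (g : E0 p n) :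
      ∃ P : MvPolynomial (Fin (n - 1)) (WittVector p (GaloisField p n)),
        g - ↑P ∈ Ideal.span (Set.range (MvPowerSeries.X : Fin (n - 1) → E0 p n)) ^ r := by
    induction r generalizing g with
    | zero => exact ⟨0, by simp⟩
    | succ r ih =>
      have h : g - MvPowerSeries.C (MvPowerSeries.constantCoeff g) ∈
          Ideal.span (Set.range (MvPowerSeries.X : Fin (n - 1) → E0 p n)) :=
        SigmaBlock.mem_span_range_X _ (by simp)
      obtain ⟨c, hc⟩ := Ideal.mem_span_range_iff_exists_fun.mp h
      choose Q hQ using fun i => ih (c i)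
      refine ⟨MvPolynomial.C (MvPowerSeries.constantCoeff g) + ∑ i, Q i * MvPolynomial.X i, ?_⟩
      have e : g - ((MvPolynomial.C (MvPowerSeries.constantCoeff g) + ∑ i, Q i * MvPolynomial.X i :
          MvPolynomial (Fin (n - 1)) (WittVector p (GaloisField p n))) : E0 p n) =
          ∑ i, (c i - (↑(Q i) : E0 p n)) * MvPowerSeries.X i := by
        rw [MvPolynomial.coe_add, MvPolynomial.coe_C]
        rw [show ((∑ i, Q i * MvPolynomial.X i :
            MvPolynomial (Fin (n - 1)) (WittVector p (GaloisField p n))) : E0 p n) =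
          ∑ i, (Q i : E0 p n) * MvPowerSeries.X i by
            rw [← MvPolynomial.coeToMvPowerSeries.ringHom_apply, map_sum]
            exact Finset.sum_congr rfl fun i _ => by simp]
        simp only [sub_mul, Finset.sum_sub_distrib, hc]
        abel
      rw [e, pow_succ]
      exact Ideal.sum_mem _ fun i _ =>
        Ideal.mul_mem_mul (hQ i) (Ideal.subset_span ⟨i, rfl⟩)

theorem nsmul_regular (k : ℕ) (a : E0Inv p n) (hk : k ≠ 0) (h : k • a = 0) : a = 0 := by
  obtain ⟨x, m, rfl⟩ := IsLocalization.exists_mk'_eq (Submonoid.powers ((p : ℕ) : E0 p n)) a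
  rw [nsmul_eq_mul, ← map_natCast (algebraMap (E0 p n) (E0Inv p n)),
    IsLocalization.mul_mk'_eq_mk'_of_mul, IsLocalization.mk'_eq_zero_iff] at h
  obtain ⟨c, hc⟩ := h
  rw [IsLocalization.mk'_eq_zero_iff]
  refine ⟨c, ?_⟩
  have hk' : ((k : ℕ) : E0 p n) ≠ 0 := fun e => by
    have h' := congrArg MvPowerSeries.constantCoeff e
    rw [map_natCast, map_zero] at h'
    obtain ⟨a, b, hb, rfl⟩ :=
      Nat.exists_eq_pow_mul_and_not_dvd hk p (Fact.out : p.Prime).ne_one
    rw [Nat.cast_mul, Nat.cast_pow, mul_eq_zero] at h'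
    rcases h' with h' | h'
    · exact natCast_p_ne_zero_witt p n (eq_zero_of_pow_eq_zero h')
    · have h3 := congrArg WittVector.constantCoeff h'
      rw [map_natCast, map_zero, CharP.cast_eq_zero_iff (GaloisField p n) p] at h3
      exact hb h3
  rw [mul_left_comm] at hc
  exact (mul_eq_zero.mp hc).resolve_left hk'

/-- The logarithm coefficients move with the automorphism. -/
theorem autInv_logCoeff (s : E0 p n ≃+* E0 p n) (k : ℕ) :
    (p : E0Inv p n) * autInv s (logCoeff p n (k + 1)) =
      ∑ i ∈ range (k + 1), autInv s (logCoeff p n i) *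
        algebraMap _ _ (s (vv p n (k + 1 - i))) ^ p ^ i := by
  rw [← map_natCast (autInv s) p, ← map_mul,
    show (p : E0Inv p n) * logCoeff p n (k + 1) = _ from (ltData p n).M_succ k, map_sum]
  refine sum_congr rfl fun i _ => ?_
  rw [map_mul, map_pow]
  exact congrArg (fun x => _ * x ^ p ^ i) (autInv_algebraMap s _)

theorem PS_eq_LE (h : PowerSeries (E0 p n)) (h0 : PowerSeries.constantCoeff h = 0) :
    (e0Setup p n).LE (MvPowerSeries.map (e0Setup p n).ι h) =
      PowerSeries.subst (PowerSeries.map (algebraMap (E0 p n) (E0Inv p n)) h) (logSeries p n) := by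
  rw [FE.Setup.LE_eq_subst, e0Setup_logPS]
  · rfl
  · exact FE.Setup.constantCoeff_map' _ h0

theorem coeff_logSeries_pow (k : ℕ) :
    PowerSeries.coeff (p ^ k) (logSeries p n) = logCoeff p n k := by
  have hp : 1 < p := (Fact.out : p.Prime).one_lt
  simp [logSeries, Nat.log_pow hp]

/-- A homomorphism s F → F is the digit series of an integral sequence, whose curve is the
logarithm of s F up to a constant. -/
theorem exists_digits {F : FormalGroup (E0 p n)} (hF : IsUniversalDeformation p n F)
    {s : E0 p n ≃+* E0 p n} {ψ : PowerSeries (E0 p n)} (hψ : IsLawHom (F.map s.toRingHom) F ψ) :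
    ∃ t : ℕ → E0 p n, ψ = digitSeries p F t ∧
      ∀ k, curveLog p n t k = algebraMap _ _ (PowerSeries.coeff 1 ψ) *
        autInv s (logCoeff p n k) := by
  classical
  have hp : 1 < p := (Fact.out : p.Prime).one_lt
  set ι := algebraMap (E0 p n) (E0Inv p n) with hι
  set f := logSeries p n with hf
  have hf0 : PowerSeries.constantCoeff f = 0 := (ltData p n).constantCoeff_f
  have hf1 : PowerSeries.coeff 1 f = 1 := (ltData p n).coeff_one_f hp
  set fs := PowerSeries.map (autInv s) f with hfs
  have hfs0 : PowerSeries.constantCoeff fs = 0 := B.constantCoeff_map_zero _ hf0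
  have hfs1 : PowerSeries.coeff 1 fs = 1 := by rw [hfs, PowerSeries.coeff_map, hf1, map_one]
  have hFK : PowerSeries.subst (F.map ι).toPowerSeries f =
      PowerSeries.subst (MvPowerSeries.X 0 : MvPowerSeries (Fin 2) (E0Inv p n)) f +
        PowerSeries.subst (MvPowerSeries.X 1 : MvPowerSeries (Fin 2) (E0Inv p n)) f := hF
  have hsK : PowerSeries.subst ((F.map s.toRingHom).map ι).toPowerSeries fs =
      PowerSeries.subst (MvPowerSeries.X 0 : MvPowerSeries (Fin 2) (E0Inv p n)) fs +
        PowerSeries.subst (MvPowerSeries.X 1 : MvPowerSeries (Fin 2) (E0Inv p n)) fs := by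
    have e : ((F.map s.toRingHom).map ι).toPowerSeries =
        MvPowerSeries.map (autInv s) (F.map ι).toPowerSeries := by
      refine MvPowerSeries.ext fun m => ?_
      simp only [FormalGroup.map_toPowerSeries, MvPowerSeries.coeff_map]
      exact (autInv_algebraMap s _).symm
    have hX : ∀ i : Fin 2,
        PowerSeries.HasSubst (MvPowerSeries.X i : MvPowerSeries (Fin 2) (E0Inv p n)) :=
      fun i => PowerSeries.HasSubst.of_constantCoeff_zero (MvPowerSeries.constantCoeff_X i)
    rw [e, hfs, ← PowerSeries.map_subst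
      (PowerSeries.HasSubst.of_constantCoeff_zero (F.map ι).zero_constantCoeff), hFK, map_add,
      PowerSeries.map_subst (hX 0), PowerSeries.map_subst (hX 1), MvPowerSeries.map_X,
      MvPowerSeries.map_X]
  set ψK := PowerSeries.map ι ψ with hψK
  obtain ⟨c, hc⟩ := log_hom nsmul_regular hfs0 hfs1 hf0 hsK hFK (hψ.map ι)
  have hψK0 : PowerSeries.constantCoeff ψK = 0 := B.constantCoeff_map_zero _ hψ.1
  have hc1 : c = ι (PowerSeries.coeff 1 ψ) := by
    have h1 := (ltData p n).coeff_linear hp hψK0 (m := Finsupp.single () 1)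
      (Finsupp.degree_single () 1)
    change PowerSeries.coeff 1 (PowerSeries.subst ψK f) = PowerSeries.coeff 1 ψK at h1
    rw [hc, PowerSeries.coeff_C_mul, hfs1, mul_one, hψK, PowerSeries.coeff_map] at h1
    exact h1
  set K : ℕ → E0Inv p n := fun k => c * autInv s (logCoeff p n k)
  have hLE : (e0Setup p n).LE (MvPowerSeries.map (e0Setup p n).ι ψ) =
      PowerSeries.C c * fs := by
    rw [PS_eq_LE ψ hψ.1]
    exact hc
  have hg : ∀ N, MvPowerSeries.coeff (Finsupp.single () N)
      ((e0Setup p n).LE (MvPowerSeries.map (e0Setup p n).ι ψ)) =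
      if N = p ^ Nat.log p N then K (Nat.log p N) else 0 := by
    intro N
    rw [hLE]
    show PowerSeries.coeff N (PowerSeries.C c * fs) = _
    rw [PowerSeries.coeff_C_mul, hfs, PowerSeries.coeff_map, hf, logSeries, PowerSeries.coeff_mk]
    split_ifs <;> simp [K]
  have hint : ∀ k, (e0Setup p n).IsInt (K k - (e0Setup p n).pinv * ∑ i ∈ range k,
      (e0Setup p n).ι ((e0Setup p n).v (k - i)) * ((e0Setup p n).φK ^ (k - i)) (K i)) := by
    intro k
    have h := (e0Setup p n).Del_LE_int (σ := Unit) (h := ψ) hψ.1 (Finsupp.single () (p ^ k))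
    have hlog : Nat.log p (p ^ k) = k := Nat.log_pow hp k
    have htw : ∀ a, MvPowerSeries.coeff (Finsupp.single () (p ^ k))
        (FE.Setup.tw ((e0Setup p n).φK ^ a) (p ^ a) (pow_ne_zero a (Fact.out : p.Prime).ne_zero)
          ((e0Setup p n).LE (MvPowerSeries.map (e0Setup p n).ι ψ))) =
        if a ≤ k then ((e0Setup p n).φK ^ a) (K (k - a)) else 0 := by
      intro a
      rw [FE.Setup.coeff_tw]
      by_cases hak : a ≤ k
      · rw [if_pos hak, if_pos (fun i => by simpa using pow_dvd_pow p hak),
          Finsupp.mapRange_single, Nat.pow_div hak (Fact.out : p.Prime).pos, hg,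
          if_pos (by rw [Nat.log_pow hp]), Nat.log_pow hp]
      · rw [if_neg hak, if_neg]
        intro h'
        have h2 : p ^ a ∣ p ^ k := by simpa using h' ()
        exact hak (Nat.pow_dvd_pow_iff_le_right hp |>.mp h2)
    unfold FE.Setup.Del at h
    rw [hg, if_pos (by rw [hlog]), hlog, Finsupp.degree_single] at h
    convert h using 3
    simp only [htw]
    rw [← Finset.sum_subset (s₁ := Icc 1 k) (Finset.Icc_subset_Icc le_rfl
      (Nat.lt_pow_self hp).le) (fun a _ ha => by
        simp only [mem_Icc, not_and_or, not_le] at ha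
        have : ¬ a ≤ k := by
          have := (mem_Icc.mp ‹a ∈ Icc 1 (p ^ k)›).1
          omega
        rw [if_neg this, mul_zero])]
    refine Finset.sum_nbij' (fun i => k - i) (fun a => k - a) ?_ ?_ ?_ ?_ ?_
    · intro i hi; simp only [mem_range, mem_Icc] at hi ⊢; omega
    · intro a ha; simp only [mem_range, mem_Icc] at ha ⊢; omega
    · intro i hi; simp only [mem_range] at hi; omega
    · intro a ha; simp only [mem_Icc] at ha; omega
    · intro i hi
      simp only [mem_range] at hi
      rw [if_pos (by omega), show k - (k - i) = i by omega]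
  obtain ⟨t, ht⟩ := (e0Setup p n).exists_curve K hint
  have hcl : ∀ k, curveLog p n t k = K k := fun k => by
    rw [ht k, curveLog]
    refine Finset.sum_congr rfl fun i _ => ?_
    rw [e0Setup_m]
    rfl
  refine ⟨t, ?_, fun k => by rw [hcl k, ← hc1]⟩
  have e2 : PowerSeries.subst ψK f =
      PowerSeries.subst (PowerSeries.map ι (digitSeries p F t)) f := by
    refine Eq.trans ?_ (B.log_digitSeries t hF).symm
    rw [hc]
    refine PowerSeries.ext fun N => ?_
    rw [PowerSeries.coeff_C_mul, hfs, PowerSeries.coeff_map, FE.pser, PowerSeries.coeff_mk, hf,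
      logSeries, PowerSeries.coeff_mk]
    split_ifs
    · rw [hcl]
    · simp
  have e3 := FE.subst_injective hf0 (hf1 ▸ isUnit_one) hψK0
    (B.constantCoeff_map_zero _ (B.constantCoeff_digitSeries F t)) e2
  refine PowerSeries.ext fun N => (e0Setup p n).inj ?_
  have := congrArg (PowerSeries.coeff N) e3
  rwa [hψK, PowerSeries.coeff_map, PowerSeries.coeff_map] at this

theorem coeff_pow_digitSeries (F : FormalGroup (E0 p n)) (hF : IsUniversalDeformation p n F)
    (t : ℕ → E0 p n) (j : ℕ) (hj : j ≠ 0) (h0 : t 0 = 1) (hz : ∀ i, 0 < i → i < j → t i = 0) :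
    PowerSeries.coeff (p ^ j) (digitSeries p F t) = t j := by
  have hp : 1 < p := (Fact.out : p.Prime).one_lt
  have hcl : ∀ k, k ≤ j → curveLog p n t k = logCoeff p n k +
      if k = j then algebraMap _ _ (t j) else 0 := by
    intro k hk
    rw [curveLog, Finset.sum_range_succ']
    simp only [h0, map_one, one_pow, mul_one, Nat.sub_zero]
    rw [add_comm]
    congr 1
    split_ifs with hkj
    · subst hkj
      rw [Finset.sum_eq_single (k - 1)]
      · rw [show k - 1 + 1 = k by omega, Nat.sub_self]
        simp [logCoeff.eq_1]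
      · intro i hi hne
        rw [hz (i + 1) (by omega) (by have := mem_range.mp hi; omega), map_zero,
          zero_pow (pow_ne_zero _ (Fact.out : p.Prime).ne_zero), mul_zero]
      · intro h; exact absurd (mem_range.mpr (by omega)) h
    · refine Finset.sum_eq_zero fun i hi => ?_
      rw [hz (i + 1) (by omega) (by have := mem_range.mp hi; omega), map_zero,
        zero_pow (pow_ne_zero _ (Fact.out : p.Prime).ne_zero), mul_zero]
  set S := e0Setup p n with hS
  set ψ := digitSeries p F t
  have hψ0 : PowerSeries.constantCoeff ψ = 0 := B.constantCoeff_digitSeries F t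
  have hψ' : MvPowerSeries.constantCoeff (MvPowerSeries.map S.ι ψ) = 0 :=
    FE.Setup.constantCoeff_map' _ hψ0
  have hX' : MvPowerSeries.constantCoeff (MvPowerSeries.X () : MvPowerSeries Unit (E0Inv p n)) = 0 :=
    MvPowerSeries.constantCoeff_X _
  have hLψ : ∀ N, MvPowerSeries.coeff (Finsupp.single () N) (S.LE (MvPowerSeries.map S.ι ψ)) =
      PowerSeries.coeff N (FE.pser p (curveLog p n t)) := fun N => by
    rw [hS, PS_eq_LE ψ hψ0]
    exact congrArg (PowerSeries.coeff N) (B.log_digitSeries t hF)
  have hLX : ∀ N, MvPowerSeries.coeff (Finsupp.single () N) (S.LE (MvPowerSeries.X ())) =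
      PowerSeries.coeff N (logSeries p n) := fun N => by
    rw [hS, FE.Setup.LE_eq_subst _ _ hX', e0Setup_logPS]
    exact congrArg (PowerSeries.coeff N) (PowerSeries.X_subst (logSeries p n))
  have hagree : ∀ N, N < p ^ j → MvPowerSeries.coeff (Finsupp.single () N) (MvPowerSeries.map S.ι ψ)
      = MvPowerSeries.coeff (Finsupp.single () N) (MvPowerSeries.X ()) := by
    intro N
    induction N using Nat.strong_induction_on with
    | _ N ih =>
      intro hN
      have e := S.LE_congr_top hψ' hX' (α := Finsupp.single () N) fun β hβ => by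
        obtain ⟨m, rfl⟩ : ∃ m, β = Finsupp.single () m := ⟨β (), Finsupp.ext fun _ => by simp⟩
        rw [Finsupp.degree_single, Finsupp.degree_single] at hβ
        exact ih m hβ (lt_trans hβ hN)
      rw [hLψ, hLX, eq_comm, sub_eq_iff_eq_add] at e
      rw [e, add_eq_right, FE.pser, PowerSeries.coeff_mk, logSeries, PowerSeries.coeff_mk]
      split_ifs with h
      · have hlt : Nat.log p N < j := by
          rw [← Nat.pow_lt_pow_iff_right hp, ← h]; exact hN
        rw [hcl _ hlt.le, if_neg (by omega), add_zero, sub_self]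
      · rw [sub_self]
  have e := S.LE_congr_top hψ' hX' (α := Finsupp.single () (p ^ j)) fun β hβ => by
    obtain ⟨m, rfl⟩ : ∃ m, β = Finsupp.single () m := ⟨β (), Finsupp.ext fun _ => by simp⟩
    rw [Finsupp.degree_single, Finsupp.degree_single] at hβ
    exact hagree m hβ
  rw [hLψ, hLX, coeff_logSeries_pow, FE.pser, PowerSeries.coeff_mk,
    if_pos (by rw [Nat.log_pow hp]), Nat.log_pow hp, hcl j le_rfl, if_pos rfl,
    add_sub_cancel_left, MvPowerSeries.coeff_map,
    show MvPowerSeries.coeff (Finsupp.single () (p ^ j)) (MvPowerSeries.X () :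
      MvPowerSeries Unit (E0Inv p n)) = 0 from by
        rw [MvPowerSeries.coeff_X, if_neg]
        intro h
        have h2 := Finsupp.single_injective _ h
        have h3 := Nat.one_lt_pow hj hp
        omega, sub_zero] at e
  exact S.inj e.symm

/-- Digits of a series reducing to X. -/
theorem residue_digits {F : FormalGroup (E0 p n)} (hF : IsUniversalDeformation p n F)
    {t : ℕ → E0 p n} {ψ : PowerSeries (E0 p n)} (hψ : ψ = digitSeries p F t)
    (hres : PowerSeries.map residue ψ = PowerSeries.X) (h0 : residue (t 0) = 1) (j : ℕ) :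
    residue (t j) = if j = 0 then 1 else 0 := by
  induction j using Nat.strong_induction_on with
  | _ j ih =>
    split_ifs with hj
    · subst hj; exact h0
    -- make the digits below j exact
    let t' : ℕ → E0 p n := fun i => if i < j then (if i = 0 then 1 else 0) else t i
    have e : PowerSeries.map residue (digitSeries p F t') = PowerSeries.map residue ψ := by
      rw [hψ, B.map_digitSeries, B.map_digitSeries]
      congr 1
      funext i
      by_cases hi : i < j
      · simp only [t', if_pos hi]
        rw [ih i hi]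
        split_ifs <;> simp
      · simp [t', hi]
    have h1 := congrArg (PowerSeries.coeff (p ^ j)) e
    rw [hres, PowerSeries.coeff_map, PowerSeries.coeff_X, if_neg (by
        have := Nat.one_lt_pow hj (Fact.out : p.Prime).one_lt; omega),
      coeff_pow_digitSeries F hF t' j hj (by simp [t', Nat.pos_iff_ne_zero.mpr hj])
        (fun i h0' hij => by simp [t', hij, Nat.pos_iff_ne_zero.mp h0'])] at h1
    simpa [t'] using h1

theorem contraction (hn : 2 ≤ n) (hc : IsAdicComplete (mE p n) (E0 p n)) {z : ℕ → E0 p n}
    (hz : Good p n z) (hres : ∀ k, 1 ≤ k → residue (z k) = residue (zstar p n k))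
    (hfix : ∀ k, 1 ≤ k → T p n z k = z k) {k : ℕ} (hk : 1 ≤ k) : z k = zstar p n k := by
  have key : ∀ r k, 1 ≤ k → z k - zstar p n k ∈ mE p n ^ (r + 1) := by
    intro r
    induction r with
    | zero =>
      intro k hk
      rw [zero_add, pow_one, ← residue_eq_iff]
      exact hres k hk
    | succ r ih =>
      intro k hk
      have h := step p n hn hz (z' := zstar p n) (r := r + 1) (k := k) (by omega) hk
        fun i hi _ => ih i hi
      rwa [hfix k hk, T_zstar p n hk] at h
  rw [← sub_eq_zero]
  refine IsHausdorff.haus hc.toIsHausdorff _ fun r => ?_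
  rw [SModEq.sub_mem, sub_zero, smul_eq_mul, Ideal.mul_top]
  exact Ideal.pow_le_pow_right (Nat.le_succ r) (key r k hk)

theorem fixed_of_recursion {z : ℕ → E0 p n}
    (hrec : ∀ k, (p : E0Inv p n) * curveLog p n (fun j => z (j + n)) (k + 1) =
      ∑ i ∈ range (k + 1), curveLog p n (fun j => z (j + n)) i *
        algebraMap (E0 p n) (E0Inv p n) (par p n z (k + 1 - i)) ^ p ^ i) :
    ∀ k, ev p n z (Wp p n k) = 0 := by
  intro k
  induction k using Nat.strong_induction_on with
  | _ k ih =>
    rcases k with _ | k
    · rw [Wp_zero, map_zero]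
    have h0 : evI p n z (Rc p n (k + 1)) = 0 := by rw [evI_Rc_succ, sub_eq_zero, hrec]
    rw [Rc_eq, map_sum, Finset.sum_range_succ, Finset.sum_eq_zero, zero_add, Nat.sub_self,
      FE.Setup.m_zero, one_mul, pow_zero, pow_one, evI_ι] at h0
    · exact (map_eq_zero_iff _ (e0Setup p n).inj).mp h0
    · intro i hi
      rw [map_mul, map_pow, evI_ι, ih i (mem_range.mp hi), map_zero,
        zero_pow (pow_ne_zero _ (Fact.out : p.Prime).ne_zero), mul_zero]

/-- A symmetry with trivial residual pair is the identity. -/
theorem eq_refl_of_residual (hn : 1 ≤ n) {F : FormalGroup (E0 p n)}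
    (hF : IsUniversalDeformation p n F) {s : E0 p n ≃+* E0 p n} {φ : PowerSeries (E0 p n)}
    (h : IsSymmetryVia F s φ) (hs : ∀ a, residue (s a) = residue a)
    (hφ : PowerSeries.map residue φ = PowerSeries.X) : s = RingEquiv.refl _ := by
  have hc : IsAdicComplete (mE p n) (E0 p n) := (sigmaPin p n).1
  have hcon := fix_constants hn hc hs
  refine eq_refl_of_gen hc hcon fun i => ?_
  have hn2 : 2 ≤ n := by have := i.2; omega
  -- the inverse series, its digits and the fixed point
  obtain ⟨hu, hhom⟩ := h
  have hψh := hhom.substInv hu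
  set ψ := φ.substInvOfIsUnit hu
  have hψres : PowerSeries.map residue ψ = PowerSeries.X := by
    have h1 : PowerSeries.subst ψ φ = PowerSeries.X :=
      PowerSeries.subst_substInvOfIsUnit_right _ hhom.1 hu
    have hψs := PowerSeries.HasSubst.substInvOfIsUnit φ hu
    have h2 := congrArg (PowerSeries.map residue) h1
    rw [PowerSeries.map_X] at h2
    rw [← h2]
    have h3 : PowerSeries.map residue (PowerSeries.subst ψ φ) =
        PowerSeries.subst (PowerSeries.map residue ψ) (PowerSeries.map residue φ) :=
      PowerSeries.map_subst hψs _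
    rw [h3, hφ, PowerSeries.subst_X
      (PowerSeries.HasSubst.of_constantCoeff_zero' (B.constantCoeff_map_zero _ hψh.1))]
  obtain ⟨t, ht, hcl⟩ := exists_digits hF hψh
  have hψ1 : residue (PowerSeries.coeff 1 ψ) = 1 := by
    rw [← PowerSeries.coeff_map, hψres, PowerSeries.coeff_one_X]
  have ht0 : t 0 = PowerSeries.coeff 1 ψ := (e0Setup p n).inj (by
    have := hcl 0
    simpa [curveLog, logCoeff.eq_1, e0Setup] using this)
  have htres := residue_digits hF ht hψres (by rw [ht0, hψ1])
  let z : ℕ → E0 p n := fun k => if k < n then s (vv p n k) else t (k - n)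
  have hzt : (fun j => z (j + n)) = t := by
    funext j; simp [z]
  have hpar : ∀ k, par p n z k = s (vv p n k) := by
    intro k
    unfold par wB xw
    split_ifs with h1 h2
    · simp [pt, h1, z]
    · subst h2; simp [vv]
    · simp [vv, h1, h2]
  have hzres : ∀ k, 1 ≤ k → residue (z k) = residue (zstar p n k) := by
    intro k hk
    by_cases hkn : k < n
    · simp [z, zstar, hkn, hs]
    · simp only [z, if_neg hkn]
      rw [htres]
      by_cases hk' : k = n
      · subst hk'; simp [zstar]
      · simp [zstar, hkn, hk', show ¬ k - n = 0 by omega]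
  have hgood : Good p n z :=
    ⟨fun k h1 h2 => by rw [hzres k h1]; exact (good_zstar p n).1 k h1 h2,
      by rw [hzres n (by omega)]; exact (good_zstar p n).2⟩
  have hrec : ∀ k, (p : E0Inv p n) * curveLog p n (fun j => z (j + n)) (k + 1) =
      ∑ l ∈ range (k + 1), curveLog p n (fun j => z (j + n)) l *
        algebraMap (E0 p n) (E0Inv p n) (par p n z (k + 1 - l)) ^ p ^ l := by
    intro k
    simp only [hzt, hcl, hpar]
    rw [mul_left_comm, autInv_logCoeff, mul_sum]
    exact sum_congr rfl fun l _ => by ring
  have hfix : ∀ k, 1 ≤ k → T p n z k = z k := fun k hk => by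
    rw [T, if_neg (by omega), fixed_of_recursion hrec, add_zero]
  have := contraction hn2 hc hgood hzres hfix (k := i.1 + 1) (by omega)
  have hlt : i.1 + 1 < n := by have := i.2; omega
  simp only [z, zstar, if_pos hlt] at this
  simpa [vv, hlt] using this

/-- A symmetry is determined by its residual pair. -/
theorem symmetry_rigid (hn : 1 ≤ n) {F : FormalGroup (E0 p n)}
    (hF : IsUniversalDeformation p n F) {s₁ s₂ : E0 p n ≃+* E0 p n}
    {φ₁ φ₂ : PowerSeries (E0 p n)} (h₁ : IsSymmetryVia F s₁ φ₁) (h₂ : IsSymmetryVia F s₂ φ₂)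
    (hs : ∀ a, residue (s₁ a) = residue (s₂ a))
    (hφ : PowerSeries.map residue φ₁ = PowerSeries.map residue φ₂) : s₁ = s₂ := by
  obtain ⟨hu₁, hh₁⟩ := h₁
  obtain ⟨hu₂, hh₂⟩ := h₂
  set ψ₁ := φ₁.substInvOfIsUnit hu₁ with hψ₁
  have hψ₁s := PowerSeries.HasSubst.substInvOfIsUnit φ₁ hu₁
  -- the composite, pulled back by the inverse of s₁
  set θ := PowerSeries.map s₁.symm.toRingHom (PowerSeries.subst ψ₁ φ₂) with hθ
  set s := s₂.trans s₁.symm with hs'
  have hG : ∀ g : E0 p n →+* E0 p n, (∀ a, g a = a) → F.map g = F := fun g hg => by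
    refine FormalGroup.ext (MvPowerSeries.ext fun m => ?_)
    simp only [FormalGroup.map_toPowerSeries, MvPowerSeries.coeff_map]
    exact hg _
  have hhom : IsLawHom F (F.map s.toRingHom) θ := by
    have h := ((hh₁.substInv hu₁).comp hh₂).map s₁.symm.toRingHom
    have e1 : (F.map s₁.toRingHom).map s₁.symm.toRingHom = F := by
      refine FormalGroup.ext (MvPowerSeries.ext fun m => ?_)
      simp only [FormalGroup.map_toPowerSeries, MvPowerSeries.coeff_map]
      exact s₁.symm_apply_apply _
    have e2 : (F.map s₂.toRingHom).map s₁.symm.toRingHom = F.map s.toRingHom := by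
      refine FormalGroup.ext (MvPowerSeries.ext fun m => ?_)
      simp only [FormalGroup.map_toPowerSeries, MvPowerSeries.coeff_map]
      rfl
    rwa [e1, e2] at h
  have hres_symm : ∀ a, residue (s a) = residue a := by
    intro a
    have h1 : s₂ a - s₁ a ∈ IsLocalRing.maximalIdeal (E0 p n) :=
      (residue_eq_iff _ _).mp (hs a).symm
    have h2 := mem_maximal_map s₁.symm h1
    rw [map_sub, s₁.symm_apply_apply] at h2
    exact (residue_eq_iff _ _).mpr h2
  have hθX : PowerSeries.map residue θ = PowerSeries.X := by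
    have e : PowerSeries.map residue (PowerSeries.subst ψ₁ φ₂) = PowerSeries.X := by
      have h1 : PowerSeries.map residue (PowerSeries.subst ψ₁ φ₂) =
          PowerSeries.subst (PowerSeries.map residue ψ₁) (PowerSeries.map residue φ₂) :=
        PowerSeries.map_subst hψ₁s _
      have h2 : PowerSeries.map residue (PowerSeries.subst ψ₁ φ₁) =
          PowerSeries.subst (PowerSeries.map residue ψ₁) (PowerSeries.map residue φ₁) :=
        PowerSeries.map_subst hψ₁s _
      rw [h1, ← hφ, ← h2, hψ₁, PowerSeries.subst_substInvOfIsUnit_right _ hh₁.1, PowerSeries.map_X]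
    refine PowerSeries.ext fun k => ?_
    rw [hθ, PowerSeries.coeff_map, PowerSeries.coeff_map]
    have hk : residue (PowerSeries.coeff k (PowerSeries.subst ψ₁ φ₂)) =
        residue (PowerSeries.coeff k PowerSeries.X) := by
      rw [← PowerSeries.coeff_map, e, ← PowerSeries.coeff_map, PowerSeries.map_X]
    have h1 := mem_maximal_map s₁.symm ((residue_eq_iff _ _).mp hk)
    rw [map_sub, ← residue_eq_iff] at h1
    rw [show residue (s₁.symm.toRingHom (PowerSeries.coeff k (PowerSeries.subst ψ₁ φ₂))) =
      residue (s₁.symm (PowerSeries.coeff k PowerSeries.X)) from h1]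
    rw [PowerSeries.coeff_X]
    split_ifs <;> simp [PowerSeries.coeff_X, *]
  have hu : IsUnit (PowerSeries.coeff 1 θ) := by
    by_contra hne
    have h1 := (mem_maximal_iff p n _).mp ((IsLocalRing.mem_maximalIdeal _).mpr hne)
    rw [← PowerSeries.coeff_map, hθX, PowerSeries.coeff_one_X] at h1
    exact one_ne_zero h1
  have := eq_refl_of_residual hn hF ⟨hu, hhom⟩ hres_symm hθX
  apply RingEquiv.ext
  intro a
  have h1 := congrArg (fun e : E0 p n ≃+* E0 p n => s₁ (e a)) this
  simpa [s] using h1.symm

end Vale.Agent.P217.Sym
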