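import Mathlib
import Vale.Agent.P217.Sym.Rigid

/-!
# P217: composition and the Galois and scalar symmetries
-/

noncomputable section

namespace Vale.Agent.P217.Sym

open Finset B

variable {p n : ℕ} [Fact p.Prime]

theorem residue_equiv_zero (s : E0 p n ≃+* E0 p n) {a : E0 p n} (h : residue a = 0) :
    residue (s a) = 0 :=
  (B.mem_maximal_iff p n _).1 (mem_maximal_map s ((B.mem_maximal_iff p n _).2 h))

theorem isUnit_iff_residue (a : E0 p n) : IsUnit a ↔ residue a ≠ 0 := by
  rw [← not_iff_not, not_not, ← B.mem_maximal_iff, IsLocalRing.mem_maximalIdeal, mem_nonunits_iff]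

theorem coeff_one_subst {R : Type} [CommRing R] {φ : PowerSeries R}
    (hφ : PowerSeries.constantCoeff φ = 0) (θ : PowerSeries R) :
    PowerSeries.coeff 1 (PowerSeries.subst φ θ) =
      PowerSeries.coeff 1 θ * PowerSeries.coeff 1 φ := by
  rw [PowerSeries.coeff_subst' (PowerSeries.HasSubst.of_constantCoeff_zero' hφ),
    finsum_eq_single _ 1]
  · simp
  · intro d hd
    rcases Nat.eq_zero_or_pos d with rfl | h
    · simp
    · rw [PowerSeries.X_pow_dvd_iff.mp (pow_dvd_pow_of_dvd (PowerSeries.X_dvd_iff.mpr hφ) d) 1
        (by omega), smul_zero]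

theorem map_map_trans (F : FormalGroup (E0 p n)) (s s' : E0 p n ≃+* E0 p n) :
    (F.map s'.toRingHom).map s.toRingHom = F.map (s'.trans s).toRingHom := by
  refine FormalGroup.ext (MvPowerSeries.ext fun m => ?_)
  simp [FormalGroup.map_toPowerSeries]

theorem IsSymmetryVia.trans {F : FormalGroup (E0 p n)} {s s' : E0 p n ≃+* E0 p n}
    {φ φ' : PowerSeries (E0 p n)} (h : IsSymmetryVia F s φ) (h' : IsSymmetryVia F s' φ') :
    IsSymmetryVia F (s'.trans s) (PowerSeries.subst φ (PowerSeries.map s.toRingHom φ')) := by
  have h2 := h'.2.map s.toRingHom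
  rw [map_map_trans] at h2
  refine ⟨?_, h.2.comp h2⟩
  rw [coeff_one_subst h.2.1, PowerSeries.coeff_map]
  exact (h'.1.map s.toRingHom).mul h.1

theorem residual_trans {s : E0 p n ≃+* E0 p n} {τ : GaloisField p n →+* GaloisField p n}
    (hs : ∀ a, residue (s a) = τ (residue a)) {φ φ' : PowerSeries (E0 p n)}
    (hφ : PowerSeries.constantCoeff φ = 0) :
    PowerSeries.map residue (PowerSeries.subst φ (PowerSeries.map s.toRingHom φ')) =
      PowerSeries.subst (PowerSeries.map residue φ)
        (PowerSeries.map τ (PowerSeries.map residue φ')) := by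
  have e : PowerSeries.map residue (PowerSeries.map s.toRingHom φ') =
      PowerSeries.map τ (PowerSeries.map residue φ') := by
    ext N; simp [hs]
  rw [← e]
  exact PowerSeries.map_subst (PowerSeries.HasSubst.of_constantCoeff_zero' hφ) _

/-- The inverse of a homomorphism to F gives a symmetry with the inverse residual. -/
theorem via_of_inverse {F : FormalGroup (E0 p n)} {s : E0 p n ≃+* E0 p n}
    {ψ : PowerSeries (E0 p n)} (h : IsSymmetryWith F s ψ) {γ : PowerSeries (GaloisField p n)}
    (hγ : PowerSeries.constantCoeff γ = 0)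
    (hinv : PowerSeries.subst γ (PowerSeries.map residue ψ) = PowerSeries.X) :
    ∃ φ, IsSymmetryVia F s φ ∧ PowerSeries.map residue φ = γ := by
  obtain ⟨-, h0, h1, hh⟩ := h
  have hu : IsUnit (PowerSeries.coeff 1 (ψ.substInvOfIsUnit h1)) := by simp
  refine ⟨ψ.substInvOfIsUnit h1, ⟨hu, IsLawHom.substInv (G := F.map s.toRingHom) (H := F)
    ⟨h0, hh⟩ h1⟩, ?_⟩
  have e := congrArg (PowerSeries.map residue) (PowerSeries.subst_substInvOfIsUnit_right _ h0 h1)
  rw [PowerSeries.map_X] at e
  have e2 : PowerSeries.map residue (PowerSeries.subst (ψ.substInvOfIsUnit h1) ψ) =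
      PowerSeries.subst (PowerSeries.map residue (ψ.substInvOfIsUnit h1))
        (PowerSeries.map residue ψ) :=
    PowerSeries.map_subst (PowerSeries.HasSubst.substInvOfIsUnit ψ h1) _
  rw [e2] at e
  refine FE.subst_injective (B.constantCoeff_map_zero _ h0)
    (by rw [PowerSeries.coeff_map]; exact h1.map residue)
    (B.constantCoeff_map_zero _ (PowerSeries.constantCoeff_substInvOfIsUnit _ h1)) hγ ?_
  rw [hinv]
  exact e

/-- The automorphism given by an automorphism of the residue field on the coefficients. -/
def galAut (τ : GaloisField p n ≃+* GaloisField p n) : E0 p n ≃+* E0 p n :=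
  RingEquiv.ofRingHom (MvPowerSeries.map (WittVector.map τ.toRingHom))
    (MvPowerSeries.map (WittVector.map τ.symm.toRingHom))
    (RingHom.ext fun a => MvPowerSeries.ext fun m => WittVector.ext fun i => by
      simp [WittVector.map_coeff])
    (RingHom.ext fun a => MvPowerSeries.ext fun m => WittVector.ext fun i => by
      simp [WittVector.map_coeff])

theorem residue_galAut (τ : GaloisField p n ≃+* GaloisField p n) (a : E0 p n) :
    residue (galAut τ a) = τ (residue a) := by
  simp [galAut, residue, WittVector.constantCoeff, WittVector.map_coeff]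

theorem galAut_vv (τ : GaloisField p n ≃+* GaloisField p n) (i : ℕ) :
    galAut τ (vv p n i) = vv p n i := by
  unfold vv
  split_ifs
  · simp [galAut]
  · simp
  · simp

/-- An automorphism fixing the parameters fixes F. -/
theorem map_eq_of_fix {F : FormalGroup (E0 p n)} (hF : IsUniversalDeformation p n F)
    {s : E0 p n ≃+* E0 p n} (hs : ∀ i, s (vv p n i) = vv p n i) : F.map s.toRingHom = F := by
  have hp : 1 < p := (Fact.out : p.Prime).one_lt
  set ι := algebraMap (E0 p n) (E0Inv p n) with hι
  set f := logSeries p n with hf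
  have hm : ∀ k, autInv s (logCoeff p n k) = logCoeff p n k := by
    intro k
    induction k using Nat.strong_induction_on with
    | _ k ih =>
      cases k with
      | zero => simp [logCoeff.eq_1]
      | succ k =>
        refine (ltData p n).cancel ?_
        rw [autInv_logCoeff,
          show (p : E0Inv p n) * logCoeff p n (k + 1) = _ from (ltData p n).M_succ k]
        refine sum_congr rfl fun i hi => ?_
        rw [ih i (mem_range.mp hi), hs]
        rfl
  have hfs : PowerSeries.map (autInv s) f = f := by
    ext N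
    rw [PowerSeries.coeff_map, hf, logSeries, PowerSeries.coeff_mk]
    split_ifs
    · exact hm _
    · exact map_zero _
  have hX : ∀ i : Fin 2,
      PowerSeries.HasSubst (MvPowerSeries.X i : MvPowerSeries (Fin 2) (E0Inv p n)) :=
    fun i => PowerSeries.HasSubst.of_constantCoeff_zero (MvPowerSeries.constantCoeff_X i)
  have hFK : PowerSeries.subst (F.map ι).toPowerSeries f =
      PowerSeries.subst (MvPowerSeries.X 0 : MvPowerSeries (Fin 2) (E0Inv p n)) f +
        PowerSeries.subst (MvPowerSeries.X 1 : MvPowerSeries (Fin 2) (E0Inv p n)) f := hF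
  have e : ((F.map s.toRingHom).map ι).toPowerSeries =
      MvPowerSeries.map (autInv s) (F.map ι).toPowerSeries := by
    refine MvPowerSeries.ext fun m => ?_
    simp only [FormalGroup.map_toPowerSeries, MvPowerSeries.coeff_map]
    exact (autInv_algebraMap s _).symm
  have key : ((F.map s.toRingHom).map ι).toPowerSeries = (F.map ι).toPowerSeries := by
    refine FE.subst_injective (f := f) (ltData p n).constantCoeff_f
      (show IsUnit (PowerSeries.coeff 1 (ltData p n).f) from
        (ltData p n).coeff_one_f hp ▸ isUnit_one)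
      (FormalGroup.zero_constantCoeff _) (FormalGroup.zero_constantCoeff _) ?_
    rw [e]
    conv_lhs => rw [← hfs]
    rw [← PowerSeries.map_subst
      (PowerSeries.HasSubst.of_constantCoeff_zero (F.map ι).zero_constantCoeff), hFK, map_add,
      PowerSeries.map_subst (hX 0), PowerSeries.map_subst (hX 1), MvPowerSeries.map_X,
      MvPowerSeries.map_X, hfs]
  refine FormalGroup.ext (MvPowerSeries.ext fun m => (e0Setup p n).inj ?_)
  exact congrArg (MvPowerSeries.coeff m) key

theorem isLawHom_X (G : FormalGroup (E0 p n)) : IsLawHom G G PowerSeries.X := by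
  refine ⟨PowerSeries.constantCoeff_X, ?_⟩
  rw [PowerSeries.subst_X (PowerSeries.HasSubst.of_constantCoeff_zero G.zero_constantCoeff),
    PowerSeries.subst_X (PowerSeries.HasSubst.of_constantCoeff_zero
      (MvPowerSeries.constantCoeff_X 0)),
    PowerSeries.subst_X (PowerSeries.HasSubst.of_constantCoeff_zero
      (MvPowerSeries.constantCoeff_X 1))]
  have : ![(MvPowerSeries.X 0 : MvPowerSeries (Fin 2) (E0 p n)), MvPowerSeries.X 1] =
      MvPowerSeries.X := by
    funext i; fin_cases i <;> rfl
  rw [this, MvPowerSeries.subst_self]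
  rfl

theorem via_galAut {F : FormalGroup (E0 p n)} (hF : IsUniversalDeformation p n F)
    (τ : GaloisField p n ≃+* GaloisField p n) : IsSymmetryVia F (galAut τ) PowerSeries.X := by
  refine ⟨by simp, ?_⟩
  rw [map_eq_of_fix hF (galAut_vv τ)]
  exact isLawHom_X F

/-- The residual law is fixed by the automorphisms of the residue field. -/
theorem map_residual_eq {F : FormalGroup (E0 p n)} (hF : IsUniversalDeformation p n F)
    (τ : GaloisField p n ≃+* GaloisField p n) :
    (F.map residue).map τ.toRingHom = F.map residue := by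
  conv_rhs => rw [← map_eq_of_fix hF (galAut_vv τ)]
  refine FormalGroup.ext (MvPowerSeries.ext fun m => ?_)
  simp [FormalGroup.map_toPowerSeries, residue_galAut]

omit [Fact p.Prime] in
theorem digitSeries_single {R : Type} [CommRing R] (G : FormalGroup R) (c : R) :
    digitSeries p G (fun j => if j = 0 then c else 0) = PowerSeries.C c * PowerSeries.X := by
  ext N
  rw [coeff_digitSeries, digitList, List.range_succ_eq_map, List.map_cons, seriesSum,
    seriesSum_all_zero]
  · simp only [if_true, pow_zero, pow_one]
    rw [G.add_zero (PowerSeries.HasSubst.of_constantCoeff_zero' (by simp))]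
  · intro b hb
    simp only [List.map_map, List.mem_map, List.mem_range, Function.comp_apply] at hb
    obtain ⟨j, -, rfl⟩ := hb
    simp

/-- The scalar on the parameter i + 1. -/
def scaleFun (ω : GaloisField p n) (i : Fin (n - 1)) : WittVector p (GaloisField p n) :=
  WittVector.teichmuller p ω ^ (p ^ ((i : ℕ) + 1) - 1)

theorem scaleFun_mul {ω ω' : GaloisField p n} (h : ω * ω' = 1) :
    scaleFun ω * scaleFun ω' = 1 := by
  funext i
  rw [Pi.mul_apply, scaleFun, scaleFun, ← mul_pow, ← map_mul, h, map_one, one_pow, Pi.one_apply]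

/-- The automorphism u i ↦ w ^ (p ^ i - 1) u i. -/
def scaleAut (ω : GaloisField p n) (hω : ω ≠ 0) : E0 p n ≃+* E0 p n :=
  RingEquiv.ofRingHom (MvPowerSeries.rescale (scaleFun ω))
    (MvPowerSeries.rescale (scaleFun ω⁻¹))
    (by rw [← MvPowerSeries.rescale_mul, scaleFun_mul (inv_mul_cancel₀ hω),
      MvPowerSeries.rescale_one])
    (by rw [← MvPowerSeries.rescale_mul, scaleFun_mul (mul_inv_cancel₀ hω),
      MvPowerSeries.rescale_one])

theorem residue_scaleAut (ω : GaloisField p n) (hω : ω ≠ 0) (a : E0 p n) :
    residue (scaleAut ω hω a) = residue a := by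
  have : MvPowerSeries.constantCoeff (MvPowerSeries.rescale (scaleFun ω) a) =
      MvPowerSeries.constantCoeff a := by
    rw [← MvPowerSeries.coeff_zero_eq_constantCoeff_apply, MvPowerSeries.coeff_rescale,
      MvPowerSeries.coeff_zero_eq_constantCoeff_apply]
    simp
  exact congrArg WittVector.constantCoeff this

theorem scaleAut_vv (hn : 1 ≤ n) (ω : GaloisField p n) (hω : ω ≠ 0) (i : ℕ) :
    scaleAut ω hω (vv p n i) = teich p n ω ^ (p ^ i - 1) * vv p n i := by
  classical
  unfold vv
  split_ifs with h1 h2
  · show MvPowerSeries.rescale (scaleFun ω) (MvPowerSeries.X _) = _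
    refine MvPowerSeries.ext fun m => ?_
    rw [teich, ← map_pow, constants, MvPowerSeries.coeff_rescale, MvPowerSeries.coeff_X,
      MvPowerSeries.coeff_C_mul, MvPowerSeries.coeff_X]
    split_ifs with hm
    · subst hm
      simp [scaleFun, show i - 1 + 1 = i by omega]
    · simp
  · subst h2
    have : Fintype (GaloisField p i) := Fintype.ofFinite _
    have hc : Fintype.card (GaloisField p i) = p ^ i := by
      rw [← Nat.card_eq_fintype_card, GaloisField.card p i (by omega)]
    have h3 : ω ^ (p ^ i - 1) = 1 := by
      rw [← hc]; exact FiniteField.pow_card_sub_one_eq_one ω hω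
    rw [map_one, teich, ← map_pow, ← map_pow, h3, map_one, map_one, mul_one]
  · rw [map_zero, mul_zero]

/-- The scalar symmetry. -/
theorem exists_scalar {F : FormalGroup (E0 p n)} (hn : 1 ≤ n)
    (hF : IsUniversalDeformation p n F) (ω : GaloisField p n) (hω : ω ≠ 0) :
    ∃ s φ, IsSymmetryVia F s φ ∧ (∀ a, residue (s a) = residue a) ∧
      PowerSeries.map residue φ = PowerSeries.C ω * PowerSeries.X := by
  set c : GaloisField p n := ω⁻¹ with hcdef
  have hc : c ≠ 0 := inv_ne_zero hω
  set t : ℕ → E0 p n := fun j => if j = 0 then teich p n c else 0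
  set ι := algebraMap (E0 p n) (E0Inv p n)
  have hcl : ∀ k, curveLog p n t k = logCoeff p n k * ι (teich p n c) ^ p ^ k := by
    intro k
    rw [curveLog, Finset.sum_eq_single 0]
    · simp [t, ι]
    · intro i _ hi
      simp [t, hi, (Fact.out : p.Prime).ne_zero]
    · simp
  have hrec : ∀ k, (p : E0Inv p n) * curveLog p n t (k + 1) =
      ∑ i ∈ range (k + 1), curveLog p n t i *
        ι (scaleAut c hc (vv p n (k + 1 - i))) ^ p ^ i := by
    intro k
    rw [hcl, ← mul_assoc,
      show (p : E0Inv p n) * logCoeff p n (k + 1) = _ from (ltData p n).M_succ k, Finset.sum_mul]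
    refine sum_congr rfl fun i hi => ?_
    obtain ⟨j, hj⟩ : ∃ j, k + 1 - i = j := ⟨_, rfl⟩
    have hij : k + 1 = j + i := by have := mem_range.mp hi; omega
    have he : p ^ (k + 1) = p ^ i + (p ^ j - 1) * p ^ i := by
      rw [hij, pow_add, Nat.sub_mul, one_mul]
      have : p ^ i ≤ p ^ j * p ^ i :=
        Nat.le_mul_of_pos_left _ (pow_pos (Fact.out : p.Prime).pos j)
      omega
    rw [hcl, hj, scaleAut_vv hn, map_mul, map_pow, he, pow_add, mul_pow, ← pow_mul]
    show logCoeff p n i * ι (vv p n j) ^ p ^ i * _ = _
    ring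
  have hw := isSymmetryWith_digitSeries hF (s := scaleAut c hc) (t := t) (fun _ => rfl)
    ((isUnit_iff_residue _).2 (by simp [t, residue_teich, hc])) hrec
  have hres : PowerSeries.map residue (digitSeries p F t) = PowerSeries.C c * PowerSeries.X := by
    rw [map_digitSeries, ← digitSeries_single (p := p) (F.map residue) c]
    congr 1
    funext j
    by_cases hj : j = 0 <;> simp [t, hj, residue_teich]
  obtain ⟨φ, hφ, hφr⟩ := via_of_inverse hw (γ := PowerSeries.C ω * PowerSeries.X) (by simp) (by
    have hs : PowerSeries.HasSubst (PowerSeries.C ω * PowerSeries.X : PowerSeries (GaloisField p n)) :=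
      PowerSeries.HasSubst.of_constantCoeff_zero' (by simp)
    rw [hres, PowerSeries.subst_mul hs, PowerSeries.subst_C, PowerSeries.subst_X hs]
    show PowerSeries.C c * (PowerSeries.C ω * PowerSeries.X) = _
    rw [← mul_assoc, ← map_mul, hcdef, inv_mul_cancel₀ hω, map_one, one_mul])
  exact ⟨_, φ, hφ, residue_scaleAut c hc, hφr⟩

end Vale.Agent.P217.Sym
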