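import Mathlib
import Vale.Agent.P217.Sym.Compose
import Vale.Agent.P217.Sym.Bij
import Vale.Agent.P217.EF.Gamma
import Vale.Agent.P217.EF.Univ

/-!
# P217: every residual pair is realised by a symmetry
-/

noncomputable section

namespace Vale.Agent.P217.Sym

open Finset B

variable {p n : ℕ} [Fact p.Prime]

theorem pow_q (hn : 1 ≤ n) (c : GaloisField p n) : c ^ p ^ n = c := by
  have : Fintype (GaloisField p n) := Fintype.ofFinite _
  have h : Fintype.card (GaloisField p n) = p ^ n := by
    rw [← Nat.card_eq_fintype_card, GaloisField.card p n (by omega)]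
  rw [← h, FiniteField.pow_card]

/-- Deep part in height at least two: prescribed residual digits with leading digit one. -/
theorem exists_with_digits {F : FormalGroup (E0 p n)} (hn : 2 ≤ n)
    (hF : IsUniversalDeformation p n F) {c : ℕ → GaloisField p n} (hc : c 0 = 1) :
    ∃ s ψ, IsSymmetryWith F s ψ ∧ (∀ a, residue (s a) = residue a) ∧
      PowerSeries.map residue ψ = digitSeries p (F.map residue) c := by
  have hg : Good p n (start p n c) :=
    ⟨fun i _ hi => by simp [start, hi], by simp [start, residue_teich, hc]⟩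
  obtain ⟨z, hgood, hres, hfix, -⟩ := exists_fixed p n hn SigmaBlock.complete_E0 hg
  have hev : ∀ k, ev p n z (Wp p n k) = 0 := by
    intro k
    rcases Nat.eq_zero_or_pos k with rfl | hk
    · rw [Wp_zero, map_zero]
    · have := hfix k hk
      rwa [T, if_neg (by omega), add_eq_left] at this
  obtain ⟨s, hsres, hs⟩ := exists_aut (by omega) hev hgood
  have hrec := recursion_of_fixed p n hfix
  refine ⟨s, digitSeries p F fun j => z (j + n), isSymmetryWith_digitSeries hF hs ?_ hrec, hsres,
    ?_⟩
  · rw [isUnit_iff_residue, zero_add, hgood.2]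
    exact one_ne_zero
  · rw [map_digitSeries]
    congr 1
    funext j
    rw [hres _ (by omega), digit_start]

theorem logCoeff_one (k : ℕ) : logCoeff p 1 k = (e0Setup p 1).pinv ^ k := by
  rw [← e0Setup_m]
  induction k with
  | zero => simp
  | succ k ih =>
    rw [FE.Setup.m_succ, Finset.sum_range_succ, Finset.sum_eq_zero, zero_add]
    · have : (e0Setup p 1).v (k + 1 - k) = 1 := by
        show vv p 1 (k + 1 - k) = 1
        rw [Nat.add_sub_cancel_left, vv, dif_neg (by omega), if_pos rfl]
      rw [this, map_one, one_pow, mul_one, ih, pow_succ']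
    · intro i hi
      have := mem_range.mp hi
      have hv : (e0Setup p 1).v (k + 1 - i) = 0 := vv_of_lt p 1 (by omega)
      rw [hv, map_zero, zero_pow (pow_ne_zero _ (Fact.out : p.Prime).ne_zero), mul_zero]

/-- Height one: every digit sequence is the residual of an endomorphism of F. -/
theorem exists_with_digits_one {F : FormalGroup (E0 p 1)} (hF : IsUniversalDeformation p 1 F)
    {c : ℕ → GaloisField p 1} (hc : c 0 = 1) :
    ∃ s ψ, IsSymmetryWith F s ψ ∧ (∀ a, residue (s a) = residue a) ∧
      PowerSeries.map residue ψ = digitSeries p (F.map residue) c := by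
  classical
  set S := e0Setup p 1 with hS
  have hcp : ∀ x : GaloisField p 1, x ^ p = x := fun x => by
    simpa using pow_q (p := p) (n := 1) le_rfl x
  set w : WittVector p (GaloisField p 1) := WittVector.mk p c with hw
  have hφw : S.φ (constants w) = constants w := by
    have hfw : WittVector.frobenius w = w := WittVector.ext fun i => by
      rw [WittVector.coeff_frobenius_charP, hw, WittVector.coeff_mk, hcp]
    show phi0 p 1 (constants w) = constants w
    simp [phi0, constants, hfw, MvPowerSeries.expand_C]
  have hfix : ∀ a, (S.φK ^ a) (S.ι (constants w)) = S.ι (constants w) := by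
    intro a
    induction a with
    | zero => simp
    | succ a ih =>
      rw [pow_succ, RingHom.coe_mul, Function.comp_apply, S.comm, hφw, ih]
  -- the curve of w times the logarithm
  have hint : ∀ k, S.IsInt (S.ι (constants w) * S.m k - S.pinv * ∑ i ∈ range k,
      S.ι (S.v (k - i)) * (S.φK ^ (k - i)) (S.ι (constants w) * S.m i)) := by
    intro k
    have e : ∀ i ∈ range k, S.ι (S.v (k - i)) * (S.φK ^ (k - i)) (S.ι (constants w) * S.m i) =
        S.ι (constants w) * (S.ι (S.v (k - i)) * (S.φK ^ (k - i)) (S.m i)) := fun i _ => by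
      rw [map_mul, hfix]; ring
    rw [sum_congr rfl e, ← mul_sum]
    rcases k with _ | k
    · exact ⟨constants w, by simp⟩
    · refine ⟨0, ?_⟩
      rw [map_zero, FE.Setup.m_succ']
      ring
  obtain ⟨t, ht⟩ := S.exists_curve _ hint
  have hcl : ∀ k, curveLog p 1 t k = S.ι (constants w) * S.m k := fun k => by
    rw [ht k, curveLog]
    refine Finset.sum_congr rfl fun i _ => ?_
    rw [hS, e0Setup_m]
    rfl
  have ht0 : t 0 = constants w := S.inj (by
    have := hcl 0
    simpa [curveLog, logCoeff.eq_1, hS, e0Setup] using this)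
  have hu : IsUnit (t 0) := by
    rw [isUnit_iff_residue, ht0]
    simp [residue, constants, hw, WittVector.constantCoeff, hc]
  have hrec : ∀ k, (p : E0Inv p 1) * curveLog p 1 t (k + 1) =
      ∑ i ∈ range (k + 1), curveLog p 1 t i *
        algebraMap (E0 p 1) (E0Inv p 1) (vv p 1 (k + 1 - i)) ^ p ^ i := by
    intro k
    simp only [hcl]
    rw [hS, e0Setup_m, mul_left_comm,
      show (p : E0Inv p 1) * logCoeff p 1 (k + 1) = _ from (ltData p 1).M_succ k, mul_sum]
    refine sum_congr rfl fun i _ => ?_
    rw [e0Setup_m]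
    exact (mul_assoc _ _ _).symm
  refine ⟨RingEquiv.refl _, digitSeries p F t,
    isSymmetryWith_digitSeries hF (s := RingEquiv.refl _) (fun _ => rfl) hu hrec, fun _ => rfl, ?_⟩
  -- compare with the Teichmueller digits
  set t' : ℕ → E0 p 1 := fun j => teich p 1 (c j)
  have e1 : PowerSeries.map residue (digitSeries p F t') = digitSeries p (F.map residue) c := by
    rw [map_digitSeries]
    congr 1
  rw [← e1]
  have hcl' : ∀ k, curveLog p 1 t' k =
      S.pinv ^ k * S.ι (constants (∑ i ∈ range (k + 1),
        WittVector.teichmuller p (c i) * (p : WittVector p (GaloisField p 1)) ^ i)) := by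
    intro k
    rw [curveLog, map_sum constants, map_sum, mul_sum]
    refine sum_congr rfl fun i hi => ?_
    have := mem_range.mp hi
    have hpow : ∀ r, teich p 1 (c i) ^ p ^ r = teich p 1 (c i) := by
      intro r
      induction r with
      | zero => simp
      | succ r ih =>
        rw [pow_succ, pow_mul, ih]
        have := teich_pow_q p 1 one_ne_zero (c i)
        rw [pow_one] at this
        rw [teich, ← map_pow, this]
    rw [logCoeff_one, ← map_pow, hpow, map_mul constants, map_pow constants, map_natCast constants,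
      map_mul, map_pow, map_natCast]
    show S.pinv ^ (k - i) * S.ι (teich p 1 (c i)) =
      S.pinv ^ k * (S.ι (teich p 1 (c i)) * (p : E0Inv p 1) ^ i)
    calc S.pinv ^ (k - i) * S.ι (teich p 1 (c i))
        = S.pinv ^ (k - i) * S.ι (teich p 1 (c i)) * ((p : E0Inv p 1) * S.pinv) ^ i := by
          rw [S.p_pinv, one_pow, mul_one]
      _ = S.pinv ^ (k - i + i) * (S.ι (teich p 1 (c i)) * (p : E0Inv p 1) ^ i) := by ring
      _ = _ := by rw [Nat.sub_add_cancel (by omega)]
  have hdvd : ∀ k, ∃ b, w - ∑ i ∈ range (k + 1),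
      WittVector.teichmuller p (c i) * (p : WittVector p (GaloisField p 1)) ^ i =
        (p : WittVector p (GaloisField p 1)) ^ (k + 1) * b := by
    intro k
    have h := WittVector.dvd_sub_sum_teichmuller_iterateFrobeniusEquiv_coeff w k
    have hfe : ∀ (i : ℕ) (x : GaloisField p 1),
        ((_root_.frobeniusEquiv (GaloisField p 1) p).symm ^ i) x = x := by
      intro i x
      induction i with
      | zero => rfl
      | succ i ih =>
        have h1 : (_root_.frobeniusEquiv (GaloisField p 1) p).symm x = x := by
          rw [RingEquiv.symm_apply_eq]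
          exact (hcp x).symm
        rw [pow_succ]
        show ((_root_.frobeniusEquiv (GaloisField p 1) p).symm ^ i)
          ((_root_.frobeniusEquiv (GaloisField p 1) p).symm x) = x
        rw [h1, ih]
    rw [Finset.sum_congr rfl fun i _ => by rw [hfe, hw, WittVector.coeff_mk],
      ← Nat.range_succ_eq_Iic] at h
    exact h
  have hdiff : ∀ k, S.IsPInt (curveLog p 1 t k - curveLog p 1 t' k) := by
    intro k
    obtain ⟨b, hb⟩ := hdvd k
    refine ⟨constants b, ?_⟩
    rw [hcl, hcl', hS, e0Setup_m, logCoeff_one, mul_comm _ ((e0Setup p 1).pinv ^ k), ← mul_sub,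
      ← map_sub, ← map_sub, hb, map_mul constants, map_pow constants, map_natCast constants,
      map_mul, map_mul, map_pow, map_natCast, pow_succ]
    calc (e0Setup p 1).pinv ^ k *
          ((p : E0Inv p 1) ^ k * (p : E0Inv p 1) * (e0Setup p 1).ι (constants b))
        = ((p : E0Inv p 1) * (e0Setup p 1).pinv) ^ k *
            ((p : E0Inv p 1) * (e0Setup p 1).ι (constants b)) := by ring
      _ = _ := by rw [(e0Setup p 1).p_pinv, one_pow, one_mul]
  have hLE : ∀ (u : ℕ → E0 p 1) (N : ℕ), MvPowerSeries.coeff (Finsupp.single () N)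
      (S.LE (MvPowerSeries.map S.ι (digitSeries p F u))) =
      PowerSeries.coeff N (FE.pser p (curveLog p 1 u)) := fun u N => by
    rw [hS, PS_eq_LE _ (B.constantCoeff_digitSeries F u)]
    exact congrArg (PowerSeries.coeff N) (B.log_digitSeries u hF)
  refine PowerSeries.ext fun N => ?_
  rw [PowerSeries.coeff_map, PowerSeries.coeff_map]
  obtain ⟨b, hb⟩ := S.mod_of_LE (h := digitSeries p F t) (h' := digitSeries p F t')
    (B.constantCoeff_digitSeries F t) (B.constantCoeff_digitSeries F t') (fun α => by
      obtain ⟨m, rfl⟩ : ∃ m, α = Finsupp.single () m := ⟨α (), Finsupp.ext fun _ => by simp⟩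
      rw [hLE, hLE, FE.pser, FE.pser, PowerSeries.coeff_mk, PowerSeries.coeff_mk]
      split_ifs
      · exact hdiff _
      · rw [sub_self]; exact S.isPInt_zero) (Finsupp.single () N)
  have h2 := congrArg residue hb
  rw [map_sub, map_mul, map_natCast, CharP.cast_eq_zero, zero_mul, sub_eq_zero] at h2
  exact h2

/-- Every automorphism of the residual law with linear coefficient one is a residual. -/
theorem exists_unipotent {F : FormalGroup (E0 p n)} (hn : 1 ≤ n)
    (hF : IsUniversalDeformation p n F) {γ : PowerSeries (GaloisField p n)}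
    (hγ : IsLawHom (F.map residue) (F.map residue) γ) (h1 : PowerSeries.coeff 1 γ = 1) :
    ∃ s φ, IsSymmetryVia F s φ ∧ (∀ a, residue (s a) = residue a) ∧
      PowerSeries.map residue φ = γ := by
  have hu : IsUnit (PowerSeries.coeff 1 γ) := h1 ▸ isUnit_one
  set δ := γ.substInvOfIsUnit hu with hδ
  have hδh : IsLawHom (F.map residue) (F.map residue) δ := hγ.substInv hu
  obtain ⟨Gn, hGn⟩ := (blockA p n hn).2.1 n hn
  have hres := EF.residue_universal hF hn hGn
  have hδI : I.IsHom (hondaIn Gn (GaloisField p n)) δ := by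
    rw [← hres]
    exact hδh.2
  set c := EF.digitsOf p (hondaIn Gn (GaloisField p n)) δ with hcdef
  have hds : digitSeries p (F.map residue) c = δ := by
    rw [hres, hcdef]
    exact EF.digitSeries_digitsOf hn hGn (pow_q hn) hδh.1 hδI
  have hc0 : c 0 = 1 := by
    have : PowerSeries.coeff 1 δ = 1 := by
      rw [hδ, PowerSeries.coeff_one_substInvOfIsUnit]
      have : hu.unit = 1 := Units.ext (by simp [h1])
      simp [this]
    simp [hcdef, EF.digitsOf, EF.partSum, this]
  obtain ⟨s, ψ, hw, hsres, hψ⟩ : ∃ s ψ, IsSymmetryWith F s ψ ∧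
      (∀ a, residue (s a) = residue a) ∧
      PowerSeries.map residue ψ = digitSeries p (F.map residue) c := by
    rcases eq_or_lt_of_le hn with h | h
    · subst h
      exact exists_with_digits_one hF hc0
    · exact exists_with_digits h hF hc0
  obtain ⟨φ, hφ, hφr⟩ := via_of_inverse hw hγ.1 (by
    rw [hψ, hds, hδ]
    exact PowerSeries.subst_substInvOfIsUnit_left _ hγ.1 hu)
  exact ⟨s, φ, hφ, hsres, hφr⟩

/-- Every residual pair (an automorphism τ of the residue field, an isomorphism γ from the
residual law to its conjugate) is realised by a symmetry. -/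
theorem symmetry_exists {F : FormalGroup (E0 p n)} (hn : 1 ≤ n)
    (hF : IsUniversalDeformation p n F) (τ : GaloisField p n ≃+* GaloisField p n)
    {γ : PowerSeries (GaloisField p n)}
    (hγ : IsLawHom (F.map residue) ((F.map residue).map τ.toRingHom) γ)
    (hγ1 : IsUnit (PowerSeries.coeff 1 γ)) :
    ∃ s φ, IsSymmetryVia F s φ ∧ (∀ a, residue (s a) = τ (residue a)) ∧
      PowerSeries.map residue φ = γ := by
  rw [map_residual_eq hF τ] at hγ
  set ω := PowerSeries.coeff 1 γ
  have hω : ω ≠ 0 := hγ1.ne_zero
  obtain ⟨sω, φω, hφω, hsω, hrω⟩ := exists_scalar hn hF ω hω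
  obtain ⟨sι, φι, hφι, hsι, hrι⟩ := exists_scalar hn hF ω⁻¹ (inv_ne_zero hω)
  have hid : ∀ {s : E0 p n ≃+* E0 p n}, (∀ a, residue (s a) = residue a) →
      (F.map s.toRingHom).map residue = F.map residue := fun {s} hs => by
    refine FormalGroup.ext (MvPowerSeries.ext fun m => ?_)
    simp [FormalGroup.map_toPowerSeries, hs]
  have hι : IsLawHom (F.map residue) (F.map residue)
      (PowerSeries.C ω⁻¹ * PowerSeries.X) := by
    have := hφι.2.map residue
    rwa [hid hsι, hrι] at this
  set γ₁ := PowerSeries.subst (PowerSeries.C ω⁻¹ * PowerSeries.X : PowerSeries (GaloisField p n)) γ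
  have hγ₁ : IsLawHom (F.map residue) (F.map residue) γ₁ := hι.comp hγ
  have h1 : PowerSeries.coeff 1 γ₁ = 1 := by
    rw [coeff_one_subst (by simp), PowerSeries.coeff_C_mul, PowerSeries.coeff_one_X, mul_one]
    exact mul_inv_cancel₀ hω
  obtain ⟨s₁, φ₁, hφ₁, hs₁, hr₁⟩ := exists_unipotent hn hF hγ₁ h1
  refine ⟨(galAut τ).trans (s₁.trans sω), _,
    (hφω.trans hφ₁).trans (via_galAut hF τ), fun a => ?_, ?_⟩
  · rw [RingEquiv.trans_apply, RingEquiv.trans_apply, hsω, hs₁, residue_galAut]
  have hsum : ∀ a, residue ((s₁.trans sω) a) = RingHom.id _ (residue a) := fun a => by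
    rw [RingEquiv.trans_apply, hsω, hs₁, RingHom.id_apply]
  rw [residual_trans hsum (hφω.trans hφ₁).2.1, PowerSeries.map_X, PowerSeries.map_X,
    PowerSeries.subst_X (PowerSeries.HasSubst.of_constantCoeff_zero'
      (B.constantCoeff_map_zero _ (hφω.trans hφ₁).2.1)),
    residual_trans (τ := RingHom.id _) (fun a => by rw [hsω, RingHom.id_apply]) hφω.2.1, hr₁, hrω,
    PowerSeries.map_id, id_eq]
  have hA : PowerSeries.HasSubst (PowerSeries.C ω⁻¹ * PowerSeries.X : PowerSeries (GaloisField p n)) :=
    PowerSeries.HasSubst.of_constantCoeff_zero' (by simp)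
  have hB : PowerSeries.HasSubst (PowerSeries.C ω * PowerSeries.X : PowerSeries (GaloisField p n)) :=
    PowerSeries.HasSubst.of_constantCoeff_zero' (by simp)
  rw [PowerSeries.subst_comp_subst_apply hA hB, PowerSeries.subst_mul hB, PowerSeries.subst_C,
    PowerSeries.subst_X hB]
  show PowerSeries.subst (PowerSeries.C ω⁻¹ * (PowerSeries.C ω * PowerSeries.X)) γ = γ
  rw [← mul_assoc, ← map_mul, inv_mul_cancel₀ hω, map_one, one_mul]
  exact PowerSeries.X_subst γ

end Vale.Agent.P217.Sym
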