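import Mathlib
import Vale.Agent.P217.Sym.Realise
import Vale.Agent.P217.EF.Cover2

/-!
# P217: the symmetries are the action of the extended stabiliser group

The reduction of F is the Honda law of height n, every symmetry induces a pair (τ, γ) on it, and
every such pair comes from exactly one symmetry.
-/

noncomputable section

namespace Vale.Agent.P217

open Vale.Agent.P217.Sym

theorem residual_pair {p n : ℕ} [Fact p.Prime] {F : FormalGroup (E0 p n)}
    {s : E0 p n ≃+* E0 p n} {φ : PowerSeries (E0 p n)} (h : IsSymmetryVia F s φ) :
    ∃ τ : GaloisField p n ≃+* GaloisField p n, (∀ a, residue (s a) = τ (residue a)) ∧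
      IsLawHom (F.map residue) ((F.map residue).map τ.toRingHom) (PowerSeries.map residue φ) ∧
      IsUnit (PowerSeries.coeff 1 (PowerSeries.map residue φ)) := by
  let t : GaloisField p n →+* GaloisField p n :=
    { toFun := fun c => residue (s (B.teich p n c))
      map_one' := by simp [B.teich]
      map_mul' := fun a b => by simp [B.teich, map_mul]
      map_zero' := by simp [B.teich]
      map_add' := fun a b => by
        rw [← map_add, ← map_add s]
        have e : residue (s (B.teich p n (a + b) - (B.teich p n a + B.teich p n b))) = 0 :=
          residue_equiv_zero s (by simp [B.residue_teich])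
        rwa [map_sub, map_sub, sub_eq_zero] at e }
  have ht : ∀ a, residue (s a) = t (residue a) := fun a => by
    show residue (s a) = residue (s (B.teich p n (residue a)))
    rw [← sub_eq_zero, ← map_sub, ← map_sub]
    exact residue_equiv_zero s (by simp [B.residue_teich])
  have hb : Function.Bijective t := Finite.injective_iff_bijective.1 t.injective
  refine ⟨RingEquiv.ofBijective t hb, ht, ?_, ?_⟩
  · have h2 := h.2.map (residue : E0 p n →+* GaloisField p n)
    have e : (F.map s.toRingHom).map residue =
        (F.map residue).map (RingEquiv.ofBijective t hb).toRingHom := by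
      refine FormalGroup.ext (MvPowerSeries.ext fun m => ?_)
      simpa [FormalGroup.map_toPowerSeries] using ht _
    rwa [e] at h2
  · rw [PowerSeries.coeff_map]
    exact h.1.map residue

theorem symmetryDictionary : SymmetryDictionary := by
  intro p n _ hn F hF
  obtain ⟨Gn, hGn⟩ := (blockA p n hn).2.1 n hn
  exact ⟨EF.residue_nsmul hF hn hGn, fun s φ h => residual_pair h,
    fun τ γ h h1 => symmetry_exists hn hF τ h h1,
    fun s s' φ φ' h h' hs hφ => symmetry_rigid hn hF h h' hs hφ⟩

end Vale.Agent.P217
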